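import Mathlib

/-!
Abstract martingale inequality behind the metric Markov cotype of `ℓ¹`.

A finite probability space `Ξ` with weights `π`, a finite measure space `Ω` of "cuts" with
weights `Λ`, a filtration given by equivalence-like relations `rel r`, and for every cut a
`[0,1]`-valued martingale `M ω r` whose terminal value is Boolean, and a Boolean `F₀`-measurable
`b ω`. Then with the clamp `psi`,
`∑_{r<T} E (∑_ω Λ_ω |psi (M ω r) - psi (M ω (r+1))|)² ≤ 256 E (∑_ω Λ_ω |M ω T - b ω|)²`.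
-/

set_option autoImplicit false
set_option linter.unusedSectionVars false
set_option linter.unnecessarySeqFocus false
set_option linter.unusedVariables false
set_option linter.style.longLine false

namespace Crest.Agent.Lib.MarkovCotype

open Finset

noncomputable section

/-- The clamp: `0` below `1/4`, `1` above `3/4`, slope `2` in between. -/
def psi (x : ℝ) : ℝ := max 0 (min 1 (2 * x - 1 / 2))

lemma psi_nonneg (x : ℝ) : 0 ≤ psi x := le_max_left _ _

lemma psi_le_one (x : ℝ) : psi x ≤ 1 := max_le zero_le_one (min_le_left _ _)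

lemma psi_of_le {x : ℝ} (h : x ≤ 1 / 4) : psi x = 0 := by
  unfold psi
  rw [max_eq_left]
  apply min_le_of_right_le
  linarith

lemma psi_of_ge {x : ℝ} (h : 3 / 4 ≤ x) : psi x = 1 := by
  unfold psi
  rw [min_eq_left (by linarith), max_eq_right zero_le_one]

lemma psi_eq_mid {x : ℝ} (h1 : 1 / 4 ≤ x) (h2 : x ≤ 3 / 4) : psi x = 2 * x - 1 / 2 := by
  unfold psi
  rw [min_eq_right (by linarith), max_eq_right (by linarith)]

lemma psi_sub_le (x y : ℝ) : psi x - psi y ≤ 2 * |x - y| := by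
  have h1 := le_abs_self (x - y)
  have h2 := neg_abs_le (x - y)
  rcases le_total x (1 / 4) with hx | hx
  · rw [psi_of_le hx]
    linarith [psi_nonneg y, abs_nonneg (x - y)]
  rcases le_total (3 / 4) y with hy | hy
  · rw [psi_of_ge hy]
    linarith [psi_le_one x, abs_nonneg (x - y)]
  rcases le_total x (3 / 4) with hx' | hx'
  · rw [psi_eq_mid hx hx']
    rcases le_total y (1 / 4) with hy' | hy'
    · rw [psi_of_le hy']
      linarith
    · rw [psi_eq_mid hy' hy]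
      linarith
  · rw [psi_of_ge hx']
    rcases le_total y (1 / 4) with hy' | hy'
    · rw [psi_of_le hy']
      linarith
    · rw [psi_eq_mid hy' hy]
      linarith

lemma psi_lip (x y : ℝ) : |psi x - psi y| ≤ 2 * |x - y| := by
  rw [abs_le]
  constructor
  · have := psi_sub_le y x
    rw [abs_sub_comm] at this
    linarith
  · exact psi_sub_le x y

lemma psi_abs_sub_le_one (x y : ℝ) : |psi x - psi y| ≤ 1 := by
  rw [abs_le]
  constructor <;> linarith [psi_nonneg x, psi_nonneg y, psi_le_one x, psi_le_one y]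

/-- If `f` is Boolean and `h ∈ [0,1]` then `|psi h - f| ≤ (4/3) |h - f|`. -/
lemma psi_close {f h : ℝ} (hf : f = 0 ∨ f = 1) (h0 : 0 ≤ h) (h1 : h ≤ 1) :
    |psi h - f| ≤ 4 / 3 * |h - f| := by
  rcases hf with rfl | rfl
  · simp only [sub_zero]
    rw [abs_of_nonneg (psi_nonneg h), abs_of_nonneg h0]
    rcases le_total h (1 / 4) with hh | hh
    · rw [psi_of_le hh]
      linarith
    rcases le_total h (3 / 4) with hh' | hh'
    · rw [psi_eq_mid hh hh']
      linarith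
    · rw [psi_of_ge hh']
      linarith
  · rw [abs_of_nonpos (by linarith [psi_le_one h]), abs_of_nonpos (by linarith)]
    rcases le_total h (1 / 4) with hh | hh
    · rw [psi_of_le hh]
      linarith
    rcases le_total h (3 / 4) with hh' | hh'
    · rw [psi_eq_mid hh hh']
      linarith
    · rw [psi_of_ge hh']
      linarith

section Abstract

variable {Ξ Ω : Type*} [Fintype Ξ] [Fintype Ω]

/-- Expectation with respect to the weights `π`. -/
def Ex (π : Ξ → ℝ) (F : Ξ → ℝ) : ℝ := ∑ z, π z * F z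

lemma Ex_mono {π : Ξ → ℝ} (hπ : ∀ z, 0 ≤ π z) {F G : Ξ → ℝ} (h : ∀ z, F z ≤ G z) :
    Ex π F ≤ Ex π G :=
  Finset.sum_le_sum fun z _ => mul_le_mul_of_nonneg_left (h z) (hπ z)

lemma Ex_nonneg {π : Ξ → ℝ} (hπ : ∀ z, 0 ≤ π z) {F : Ξ → ℝ} (h : ∀ z, 0 ≤ F z) :
    0 ≤ Ex π F :=
  Finset.sum_nonneg fun z _ => mul_nonneg (hπ z) (h z)

lemma Ex_add (π F G : Ξ → ℝ) : Ex π (fun z => F z + G z) = Ex π F + Ex π G := by
  unfold Ex
  rw [← Finset.sum_add_distrib]
  exact Finset.sum_congr rfl fun z _ => by ring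

lemma Ex_sub (π F G : Ξ → ℝ) : Ex π (fun z => F z - G z) = Ex π F - Ex π G := by
  unfold Ex
  rw [← Finset.sum_sub_distrib]
  exact Finset.sum_congr rfl fun z _ => by ring

lemma Ex_const_mul (π F : Ξ → ℝ) (c : ℝ) : Ex π (fun z => c * F z) = c * Ex π F := by
  unfold Ex
  rw [Finset.mul_sum]
  exact Finset.sum_congr rfl fun z _ => by ring

lemma Ex_sum {ι : Type*} (π : Ξ → ℝ) (s : Finset ι) (F : ι → Ξ → ℝ) :
    Ex π (fun z => ∑ i ∈ s, F i z) = ∑ i ∈ s, Ex π (F i) := by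
  unfold Ex
  simp_rw [Finset.mul_sum]
  rw [Finset.sum_comm]

lemma Ex_congr {π F G : Ξ → ℝ} (h : ∀ z, F z = G z) : Ex π F = Ex π G :=
  Finset.sum_congr rfl fun z _ => by rw [h z]

/-- `g` is measurable at time `r`. -/
def Dep (rel : ℕ → Ξ → Ξ → Prop) (r : ℕ) (g : Ξ → ℝ) : Prop :=
  ∀ z z', rel r z z' → g z = g z'

lemma Dep.add {rel : ℕ → Ξ → Ξ → Prop} {r : ℕ} {f g : Ξ → ℝ} (hf : Dep rel r f) (hg : Dep rel r g) :
    Dep rel r (fun z => f z + g z) := fun z z' h => by simp only [hf z z' h, hg z z' h]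

lemma Dep.sub {rel : ℕ → Ξ → Ξ → Prop} {r : ℕ} {f g : Ξ → ℝ} (hf : Dep rel r f) (hg : Dep rel r g) :
    Dep rel r (fun z => f z - g z) := fun z z' h => by simp only [hf z z' h, hg z z' h]

lemma Dep.mul {rel : ℕ → Ξ → Ξ → Prop} {r : ℕ} {f g : Ξ → ℝ} (hf : Dep rel r f) (hg : Dep rel r g) :
    Dep rel r (fun z => f z * g z) := fun z z' h => by simp only [hf z z' h, hg z z' h]

lemma Dep.const {rel : ℕ → Ξ → Ξ → Prop} {r : ℕ} (c : ℝ) : Dep rel r (fun _ => c) := fun _ _ _ => rfl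

lemma Dep.sum {ι : Type*} {rel : ℕ → Ξ → Ξ → Prop} {r : ℕ} (s : Finset ι) {F : ι → Ξ → ℝ}
    (hF : ∀ i ∈ s, Dep rel r (F i)) : Dep rel r (fun z => ∑ i ∈ s, F i z) := fun z z' h =>
  Finset.sum_congr rfl fun i hi => hF i hi z z' h

/-- The hypotheses of the abstract inequality. -/
structure MartHyp (π : Ξ → ℝ) (Λ : Ω → ℝ) (T : ℕ) (rel : ℕ → Ξ → Ξ → Prop)
    (M : Ω → ℕ → Ξ → ℝ) (b : Ω → Ξ → ℝ) : Prop where
  hπ : ∀ z, 0 ≤ π z
  hΛ : ∀ ω, 0 ≤ Λ ω
  hrel : ∀ r z z', rel (r + 1) z z' → rel r z z'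
  hM : ∀ ω r, Dep rel r (M ω r)
  hb : ∀ ω, Dep rel 0 (b ω)
  hb01 : ∀ ω z, b ω z = 0 ∨ b ω z = 1
  hM01 : ∀ ω r z, 0 ≤ M ω r z ∧ M ω r z ≤ 1
  hMT : ∀ ω z, M ω T z = 0 ∨ M ω T z = 1
  hmart : ∀ ω r, r < T → ∀ g : Ξ → ℝ, Dep rel r g →
    Ex π (fun z => g z * (M ω (r + 1) z - M ω r z)) = 0

variable {π : Ξ → ℝ} {Λ : Ω → ℝ} {T : ℕ} {rel : ℕ → Ξ → Ξ → Prop}
  {M : Ω → ℕ → Ξ → ℝ} {b : Ω → Ξ → ℝ}

lemma Dep.mono (hrel : ∀ r z z', rel (r + 1) z z' → rel r z z') {r r' : ℕ} (h : r ≤ r')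
    {g : Ξ → ℝ} (hg : Dep rel r g) : Dep rel r' g := by
  intro z z' hzz
  apply hg
  obtain ⟨k, rfl⟩ := Nat.exists_eq_add_of_le h
  clear h
  induction k with
  | zero => simpa using hzz
  | succ k ih => exact ih (hrel _ _ _ hzz)

/-- Distance of the martingale from the Boolean start value. -/
def Mhat (M : Ω → ℕ → Ξ → ℝ) (b : Ω → Ξ → ℝ) (ω : Ω) (r : ℕ) (z : Ξ) : ℝ := |M ω r z - b ω z|

open Classical in
/-- Indicator that the coordinate `ω` has been entered by time `r`. -/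
def ee (M : Ω → ℕ → Ξ → ℝ) (b : Ω → Ξ → ℝ) (ω : Ω) (r : ℕ) (z : Ξ) : ℝ :=
  if ∃ q ≤ r, 1 / 4 ≤ Mhat M b ω q z then 1 else 0

/-- Indicator that the coordinate `ω` is entered exactly at time `q`. -/
def nu (M : Ω → ℕ → Ξ → ℝ) (b : Ω → Ξ → ℝ) (ω : Ω) : ℕ → Ξ → ℝ
  | 0, z => ee M b ω 0 z
  | q + 1, z => ee M b ω (q + 1) z - ee M b ω q z

/-- The mass of the coordinates entered exactly at time `q`. -/
def aa (Λ : Ω → ℝ) (M : Ω → ℕ → Ξ → ℝ) (b : Ω → Ξ → ℝ) (q : ℕ) (z : Ξ) : ℝ :=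
  ∑ ω, Λ ω * nu M b ω q z

/-- The mass of the coordinates entered by time `r`. -/
def AA (Λ : Ω → ℝ) (M : Ω → ℕ → Ξ → ℝ) (b : Ω → Ξ → ℝ) (r : ℕ) (z : Ξ) : ℝ :=
  ∑ ω, Λ ω * ee M b ω r z

/-- The terminal distance. -/
def LL (Λ : Ω → ℝ) (M : Ω → ℕ → Ξ → ℝ) (b : Ω → Ξ → ℝ) (T : ℕ) (z : Ξ) : ℝ :=
  ∑ ω, Λ ω * Mhat M b ω T z

lemma ee_01 (ω : Ω) (r : ℕ) (z : Ξ) : ee M b ω r z = 0 ∨ ee M b ω r z = 1 := by
  unfold ee
  split_ifs <;> simp

lemma ee_nonneg (ω : Ω) (r : ℕ) (z : Ξ) : 0 ≤ ee M b ω r z := by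
  rcases ee_01 (M := M) (b := b) ω r z with h | h <;> rw [h] <;> norm_num

lemma ee_le_one (ω : Ω) (r : ℕ) (z : Ξ) : ee M b ω r z ≤ 1 := by
  rcases ee_01 (M := M) (b := b) ω r z with h | h <;> rw [h] <;> norm_num

lemma ee_mono (ω : Ω) {r r' : ℕ} (h : r ≤ r') (z : Ξ) : ee M b ω r z ≤ ee M b ω r' z := by
  unfold ee
  split_ifs with h1 h2 h2
  · exact le_rfl
  · exfalso
    obtain ⟨q, hq, hq'⟩ := h1
    exact h2 ⟨q, hq.trans h, hq'⟩
  · exact zero_le_one
  · exact le_rfl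

lemma ee_eq_zero_imp {ω : Ω} {r : ℕ} {z : Ξ} (h : ee M b ω r z = 0) {q : ℕ} (hq : q ≤ r) :
    Mhat M b ω q z < 1 / 4 := by
  unfold ee at h
  split_ifs at h with h1
  · norm_num at h
  · by_contra hc
    exact h1 ⟨q, hq, not_lt.mp hc⟩

lemma ee_eq_one_imp {ω : Ω} {r : ℕ} {z : Ξ} (h : ee M b ω r z = 1) :
    ∃ q ≤ r, 1 / 4 ≤ Mhat M b ω q z := by
  unfold ee at h
  split_ifs at h with h1
  · exact h1
  · norm_num at h

lemma nu_nonneg (ω : Ω) (q : ℕ) (z : Ξ) : 0 ≤ nu M b ω q z := by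
  cases q with
  | zero => exact ee_nonneg ω 0 z
  | succ q =>
    have := ee_mono (M := M) (b := b) ω (Nat.le_succ q) z
    simp only [nu]
    linarith

lemma sum_range_nu (ω : Ω) (r : ℕ) (z : Ξ) :
    ∑ q ∈ range (r + 1), nu M b ω q z = ee M b ω r z := by
  induction r with
  | zero => simp [nu]
  | succ r ih =>
    rw [Finset.sum_range_succ, ih]
    simp only [nu]
    ring

lemma nu_key (ω : Ω) (q : ℕ) (z : Ξ) :
    nu M b ω q z * (1 / 4) ≤ nu M b ω q z * Mhat M b ω q z := by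
  cases q with
  | zero =>
    rcases ee_01 (M := M) (b := b) ω 0 z with h | h
    · simp [nu, h]
    · obtain ⟨q, hq, hq'⟩ := ee_eq_one_imp h
      obtain rfl : q = 0 := by omega
      simp only [nu, h]
      linarith
  | succ q =>
    simp only [nu]
    rcases ee_01 (M := M) (b := b) ω (q + 1) z with h | h
    · have h0 : ee M b ω q z = 0 := by
        have h1 := ee_mono (M := M) (b := b) ω (Nat.le_succ q) z
        have h2 := ee_nonneg (M := M) (b := b) ω q z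
        rw [h] at h1
        linarith
      simp [h, h0]
    · rcases ee_01 (M := M) (b := b) ω q z with h0 | h0
      · obtain ⟨q', hq, hq'⟩ := ee_eq_one_imp h
        have hq2 : q' = q + 1 := by
          by_contra hne
          have := ee_eq_zero_imp h0 (q := q') (by omega)
          linarith
        subst hq2
        rw [h, h0]
        linarith
      · simp [h, h0]

lemma nu_sum_Ico_le_one (ω : Ω) (q N : ℕ) (z : Ξ) :
    ∑ q' ∈ Ico q (N + 1), nu M b ω q' z ≤ 1 := by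
  calc ∑ q' ∈ Ico q (N + 1), nu M b ω q' z ≤ ∑ q' ∈ range (N + 1), nu M b ω q' z := by
        apply Finset.sum_le_sum_of_subset_of_nonneg
        · intro x hx
          simp only [mem_Ico, mem_range] at hx ⊢
          exact hx.2
        · intro i _ _
          exact nu_nonneg ω i z
    _ = ee M b ω N z := sum_range_nu ω N z
    _ ≤ 1 := ee_le_one ω N z

lemma aa_nonneg (H : MartHyp π Λ T rel M b) (q : ℕ) (z : Ξ) : 0 ≤ aa Λ M b q z :=
  Finset.sum_nonneg fun ω _ => mul_nonneg (H.hΛ ω) (nu_nonneg ω q z)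

lemma AA_nonneg (H : MartHyp π Λ T rel M b) (r : ℕ) (z : Ξ) : 0 ≤ AA Λ M b r z :=
  Finset.sum_nonneg fun ω _ => mul_nonneg (H.hΛ ω) (ee_nonneg ω r z)

lemma AA_mono (H : MartHyp π Λ T rel M b) {r r' : ℕ} (h : r ≤ r') (z : Ξ) :
    AA Λ M b r z ≤ AA Λ M b r' z :=
  Finset.sum_le_sum fun ω _ => mul_le_mul_of_nonneg_left (ee_mono ω h z) (H.hΛ ω)

lemma sum_range_aa (r : ℕ) (z : Ξ) :
    ∑ q ∈ range (r + 1), aa Λ M b q z = AA Λ M b r z := by
  unfold aa AA
  rw [Finset.sum_comm]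
  refine Finset.sum_congr rfl fun ω _ => ?_
  rw [← Finset.mul_sum, sum_range_nu]

lemma Mhat_eq (H : MartHyp π Λ T rel M b) (ω : Ω) (r : ℕ) (z : Ξ) :
    Mhat M b ω r z = b ω z + (1 - 2 * b ω z) * M ω r z := by
  unfold Mhat
  have h := H.hM01 ω r z
  rcases H.hb01 ω z with hb | hb
  · rw [hb, sub_zero, abs_of_nonneg h.1]
    ring
  · rw [hb, abs_of_nonpos (by linarith [h.2])]
    ring

lemma Mhat_nonneg (ω : Ω) (r : ℕ) (z : Ξ) : 0 ≤ Mhat M b ω r z := abs_nonneg _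

lemma Dep_b (H : MartHyp π Λ T rel M b) (ω : Ω) (r : ℕ) : Dep rel r (b ω) :=
  Dep.mono H.hrel (Nat.zero_le r) (H.hb ω)

lemma Dep_Mhat (H : MartHyp π Λ T rel M b) (ω : Ω) (r : ℕ) : Dep rel r (Mhat M b ω r) := by
  intro z z' h
  unfold Mhat
  rw [H.hM ω r z z' h, Dep_b H ω r z z' h]

lemma Dep_ee (H : MartHyp π Λ T rel M b) (ω : Ω) (r : ℕ) : Dep rel r (ee M b ω r) := by
  intro z z' h
  unfold ee
  have key : ∀ q ≤ r, Mhat M b ω q z = Mhat M b ω q z' := fun q hq =>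
    (Dep.mono H.hrel hq (Dep_Mhat H ω q)) z z' h
  have : (∃ q ≤ r, 1 / 4 ≤ Mhat M b ω q z) ↔ (∃ q ≤ r, 1 / 4 ≤ Mhat M b ω q z') := by
    constructor
    · rintro ⟨q, hq, hq'⟩
      exact ⟨q, hq, by rwa [← key q hq]⟩
    · rintro ⟨q, hq, hq'⟩
      exact ⟨q, hq, by rwa [key q hq]⟩
  simp only [this]

lemma Dep_nu (H : MartHyp π Λ T rel M b) (ω : Ω) (q : ℕ) : Dep rel q (nu M b ω q) := by
  cases q with
  | zero => exact Dep_ee H ω 0
  | succ q =>
    exact (Dep_ee H ω (q + 1)).sub (Dep.mono H.hrel (Nat.le_succ q) (Dep_ee H ω q))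

lemma Dep_aa (H : MartHyp π Λ T rel M b) (q : ℕ) : Dep rel q (aa Λ M b q) :=
  Dep.sum _ fun ω _ => (Dep.const (Λ ω)).mul (Dep_nu H ω q)

lemma Dep_AA (H : MartHyp π Λ T rel M b) (r : ℕ) : Dep rel r (AA Λ M b r) :=
  Dep.sum _ fun ω _ => (Dep.const (Λ ω)).mul (Dep_ee H ω r)

/-- `Mhat` is again a martingale. -/
lemma Mhat_mart (H : MartHyp π Λ T rel M b) (ω : Ω) {r : ℕ} (hr : r < T) {g : Ξ → ℝ}
    (hg : Dep rel r g) :
    Ex π (fun z => g z * Mhat M b ω (r + 1) z) = Ex π (fun z => g z * Mhat M b ω r z) := by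
  have h := H.hmart ω r hr (fun z => g z * (1 - 2 * b ω z))
    (hg.mul ((Dep.const 1).sub ((Dep.const 2).mul (Dep_b H ω r))))
  rw [← sub_eq_zero, ← Ex_sub, ← h]
  refine Ex_congr fun z => ?_
  rw [Mhat_eq H, Mhat_eq H]
  ring

lemma Mhat_tower (H : MartHyp π Λ T rel M b) (ω : Ω) (k : ℕ) {q : ℕ} (hq : q + k = T) {g : Ξ → ℝ}
    (hg : Dep rel q g) :
    Ex π (fun z => g z * Mhat M b ω q z) = Ex π (fun z => g z * Mhat M b ω T z) := by
  induction k generalizing q with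
  | zero =>
    obtain rfl : q = T := by omega
    rfl
  | succ k ih =>
    rw [← Mhat_mart H ω (r := q) (by omega) hg]
    exact ih (by omega) (Dep.mono H.hrel (Nat.le_succ q) hg)

/-- Pathwise: the square of a sum of nonnegative terms. -/
lemma sq_sum_le_two_mul (a : ℕ → ℝ) (ha : ∀ q, 0 ≤ a q) (N : ℕ) :
    (∑ q ∈ range N, a q) ^ 2 ≤ 2 * ∑ q ∈ range N, ∑ q' ∈ Ico q N, a q * a q' := by
  induction N with
  | zero => simp
  | succ N ih =>
    have h1 : ∑ q ∈ range (N + 1), ∑ q' ∈ Ico q (N + 1), a q * a q' =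
        ∑ q ∈ range N, ∑ q' ∈ Ico q N, a q * a q' + a N * ∑ q ∈ range N, a q + a N * a N := by
      rw [Finset.sum_range_succ]
      have h2 : ∀ q ∈ range N, ∑ q' ∈ Ico q (N + 1), a q * a q' =
          ∑ q' ∈ Ico q N, a q * a q' + a q * a N := by
        intro q hq
        rw [Finset.sum_Ico_succ_top (by simpa using (mem_range.mp hq).le)]
      rw [Finset.sum_congr rfl h2, Finset.sum_add_distrib]
      simp only [Nat.Ico_succ_singleton, Finset.sum_singleton, Finset.mul_sum]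
      have h3 : ∑ i ∈ range N, a i * a N = ∑ i ∈ range N, a N * a i :=
        Finset.sum_congr rfl fun i _ => mul_comm _ _
      rw [h3]
    rw [h1, Finset.sum_range_succ]
    nlinarith [ha N, sq_nonneg (a N)]

/-- Garsia--Neveu step for one `q`. -/
lemma GN_one (H : MartHyp π Λ T rel M b) {q : ℕ} (_hq : q ≤ T) :
    ∑ q' ∈ Ico q (T + 1), Ex π (fun z => aa Λ M b q z * aa Λ M b q' z) ≤
      4 * Ex π (fun z => aa Λ M b q z * LL Λ M b T z) := by
  have step : ∀ q' ∈ Ico q (T + 1), ∀ ω : Ω,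
      Ex π (fun z => aa Λ M b q z * nu M b ω q' z) ≤
        4 * Ex π (fun z => (aa Λ M b q z * nu M b ω q' z) * Mhat M b ω T z) := by
    intro q' hq' ω
    simp only [mem_Ico] at hq'
    have hdep : Dep rel q' (fun z => aa Λ M b q z * nu M b ω q' z) :=
      (Dep.mono H.hrel hq'.1 (Dep_aa H q)).mul (Dep_nu H ω q')
    rw [← Mhat_tower H ω (T - q') (by omega) hdep, ← Ex_const_mul]
    apply Ex_mono H.hπ
    intro z
    have h1 := nu_key (M := M) (b := b) ω q' z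
    have h2 := aa_nonneg H q z
    have := mul_le_mul_of_nonneg_left h1 h2
    nlinarith
  calc ∑ q' ∈ Ico q (T + 1), Ex π (fun z => aa Λ M b q z * aa Λ M b q' z)
      = ∑ q' ∈ Ico q (T + 1), ∑ ω, Λ ω * Ex π (fun z => aa Λ M b q z * nu M b ω q' z) := by
        refine Finset.sum_congr rfl fun q' _ => ?_
        simp_rw [← Ex_const_mul]
        rw [← Ex_sum]
        refine Ex_congr fun z => ?_
        rw [show aa Λ M b q' z = ∑ ω, Λ ω * nu M b ω q' z from rfl, Finset.mul_sum]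
        refine Finset.sum_congr rfl fun ω _ => ?_
        ring
    _ ≤ ∑ q' ∈ Ico q (T + 1), ∑ ω, Λ ω *
          (4 * Ex π (fun z => (aa Λ M b q z * nu M b ω q' z) * Mhat M b ω T z)) := by
        refine Finset.sum_le_sum fun q' hq' => Finset.sum_le_sum fun ω _ => ?_
        exact mul_le_mul_of_nonneg_left (step q' hq' ω) (H.hΛ ω)
    _ = 4 * Ex π (fun z => ∑ ω, Λ ω * (aa Λ M b q z *
          (∑ q' ∈ Ico q (T + 1), nu M b ω q' z) * Mhat M b ω T z)) := by
        rw [Ex_sum, Finset.sum_comm, Finset.mul_sum]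
        refine Finset.sum_congr rfl fun ω _ => ?_
        simp_rw [Ex_const_mul]
        rw [← Finset.mul_sum, ← Finset.mul_sum]
        rw [mul_left_comm]
        congr 2
        rw [← Ex_sum]
        refine Ex_congr fun z => ?_
        rw [Finset.mul_sum, Finset.sum_mul]
    _ ≤ 4 * Ex π (fun z => aa Λ M b q z * LL Λ M b T z) := by
        apply mul_le_mul_of_nonneg_left _ (by norm_num)
        apply Ex_mono H.hπ
        intro z
        rw [LL, Finset.mul_sum]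
        refine Finset.sum_le_sum fun ω _ => ?_
        have h1 := nu_sum_Ico_le_one (M := M) (b := b) ω q T z
        have h2 := aa_nonneg H q z
        have h3 := Mhat_nonneg (M := M) (b := b) ω T z
        have h4 := H.hΛ ω
        have h5 : aa Λ M b q z * (∑ q' ∈ Ico q (T + 1), nu M b ω q' z) * Mhat M b ω T z ≤
            aa Λ M b q z * Mhat M b ω T z := by
          have := mul_le_mul_of_nonneg_left h1 h2
          have := mul_le_mul_of_nonneg_right this h3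
          linarith
        have := mul_le_mul_of_nonneg_left h5 h4
        linarith

/-- Garsia--Neveu: `E A² ≤ 8 E[A L]`. -/
lemma GN_total (H : MartHyp π Λ T rel M b) :
    Ex π (fun z => AA Λ M b T z ^ 2) ≤ 8 * Ex π (fun z => AA Λ M b T z * LL Λ M b T z) := by
  calc Ex π (fun z => AA Λ M b T z ^ 2)
      ≤ Ex π (fun z => 2 * ∑ q ∈ range (T + 1), ∑ q' ∈ Ico q (T + 1),
          aa Λ M b q z * aa Λ M b q' z) := by
        apply Ex_mono H.hπ
        intro z
        rw [← sum_range_aa]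
        exact sq_sum_le_two_mul (fun q => aa Λ M b q z) (fun q => aa_nonneg H q z) (T + 1)
    _ = 2 * ∑ q ∈ range (T + 1), ∑ q' ∈ Ico q (T + 1),
          Ex π (fun z => aa Λ M b q z * aa Λ M b q' z) := by
        rw [Ex_const_mul, Ex_sum]
        simp_rw [Ex_sum]
    _ ≤ 2 * ∑ q ∈ range (T + 1), (4 * Ex π (fun z => aa Λ M b q z * LL Λ M b T z)) := by
        apply mul_le_mul_of_nonneg_left _ (by norm_num)
        refine Finset.sum_le_sum fun q hq => GN_one H ?_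
        have := mem_range.mp hq
        omega
    _ = 8 * Ex π (fun z => AA Λ M b T z * LL Λ M b T z) := by
        rw [← Finset.mul_sum, ← Ex_sum, ← mul_assoc]
        have h8 : (2 : ℝ) * 4 = 8 := by norm_num
        rw [h8]
        congr 1
        refine Ex_congr fun z => ?_
        rw [← sum_range_aa, Finset.sum_mul]

/-- `E A² ≤ 64 E L²`. -/
lemma AA_sq_le (H : MartHyp π Λ T rel M b) :
    Ex π (fun z => AA Λ M b T z ^ 2) ≤ 64 * Ex π (fun z => LL Λ M b T z ^ 2) := by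
  have h1 := GN_total H
  have h2 : 8 * Ex π (fun z => AA Λ M b T z * LL Λ M b T z) ≤
      1 / 2 * Ex π (fun z => AA Λ M b T z ^ 2) + 32 * Ex π (fun z => LL Λ M b T z ^ 2) := by
    rw [← Ex_const_mul, ← Ex_const_mul, ← Ex_const_mul, ← Ex_add]
    apply Ex_mono H.hπ
    intro z
    nlinarith [sq_nonneg (AA Λ M b T z / 4 - 2 * LL Λ M b T z),
      sq_nonneg (AA Λ M b T z - 8 * LL Λ M b T z)]
  linarith

/-- Abel summation: bound for a nondecreasing nonnegative weight. -/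
lemma abel_bound (c g : ℕ → ℝ) (G : ℝ) (hc : ∀ r, c r ≤ c (r + 1)) (hc0 : ∀ r, 0 ≤ c r)
    (hg : ∀ r, g r ≤ G) (N : ℕ) :
    ∑ r ∈ range N, c r * (g r - g (r + 1)) ≤ c N * (G - g N) := by
  induction N with
  | zero =>
    simp only [range_zero, sum_empty]
    exact mul_nonneg (hc0 0) (by linarith [hg 0])
  | succ N ih =>
    rw [Finset.sum_range_succ]
    have h1 : 0 ≤ G - g (N + 1) := by linarith [hg (N + 1)]
    have h2 := mul_le_mul_of_nonneg_right (hc N) h1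
    nlinarith

/-- The entropy-like function. -/
def gg (x : ℝ) : ℝ := x * (1 - x)

lemma gg_le (x : ℝ) : gg x ≤ 1 / 4 := by
  unfold gg
  nlinarith [sq_nonneg (x - 1 / 2)]

/-- The energy estimate. -/
lemma energy_one (H : MartHyp π Λ T rel M b) (ω : Ω) :
    ∑ r ∈ range T, Ex π (fun z => AA Λ M b r z * ee M b ω r z * (M ω (r + 1) z - M ω r z) ^ 2) ≤
      1 / 4 * Ex π (fun z => AA Λ M b T z * ee M b ω T z) := by
  have step : ∀ r ∈ range T,
      Ex π (fun z => AA Λ M b r z * ee M b ω r z * (M ω (r + 1) z - M ω r z) ^ 2) =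
      Ex π (fun z => AA Λ M b r z * ee M b ω r z * (gg (M ω r z) - gg (M ω (r + 1) z))) := by
    intro r hr
    have h := H.hmart ω r (mem_range.mp hr)
      (fun z => AA Λ M b r z * ee M b ω r z * (2 * M ω r z - 1))
      (((Dep_AA H r).mul (Dep_ee H ω r)).mul (((Dep.const 2).mul (H.hM ω r)).sub (Dep.const 1)))
    have h2 : Ex π (fun z => AA Λ M b r z * ee M b ω r z * (M ω (r + 1) z - M ω r z) ^ 2) =
        Ex π (fun z => AA Λ M b r z * ee M b ω r z * (gg (M ω r z) - gg (M ω (r + 1) z))) -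
        Ex π (fun z => AA Λ M b r z * ee M b ω r z * (2 * M ω r z - 1) *
          (M ω (r + 1) z - M ω r z)) := by
      rw [← Ex_sub]
      refine Ex_congr fun z => ?_
      unfold gg
      ring
    rw [h2, h, sub_zero]
  rw [Finset.sum_congr rfl step, ← Ex_sum, ← Ex_const_mul]
  apply Ex_mono H.hπ
  intro z
  have h1 := abel_bound (fun r => AA Λ M b r z * ee M b ω r z) (fun r => gg (M ω r z)) (1 / 4)
    (fun r => mul_le_mul (AA_mono H (Nat.le_succ r) z) (ee_mono ω (Nat.le_succ r) z)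
      (ee_nonneg ω r z) (AA_nonneg H (r + 1) z))
    (fun r => mul_nonneg (AA_nonneg H r z) (ee_nonneg ω r z))
    (fun r => gg_le _) T
  have h2 : gg (M ω T z) = 0 := by
    rcases H.hMT ω z with h | h <;> rw [h] <;> simp [gg]
  simp only [h2, sub_zero] at h1
  calc _ ≤ _ := h1
    _ = _ := by ring

/-- The conditional variance over the entered coordinates (no conditioning needed). -/
def KK (Λ : Ω → ℝ) (M : Ω → ℕ → Ξ → ℝ) (b : Ω → Ξ → ℝ) (r : ℕ) (z : Ξ) : ℝ :=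
  ∑ ω, Λ ω * (ee M b ω r z * (M ω (r + 1) z - M ω r z) ^ 2)

lemma energy_total (H : MartHyp π Λ T rel M b) :
    ∑ r ∈ range T, Ex π (fun z => AA Λ M b r z * KK Λ M b r z) ≤
      1 / 4 * Ex π (fun z => AA Λ M b T z ^ 2) := by
  calc ∑ r ∈ range T, Ex π (fun z => AA Λ M b r z * KK Λ M b r z)
      = ∑ ω, Λ ω * ∑ r ∈ range T,
          Ex π (fun z => AA Λ M b r z * ee M b ω r z * (M ω (r + 1) z - M ω r z) ^ 2) := by
        simp_rw [Finset.mul_sum]
        rw [Finset.sum_comm]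
        refine Finset.sum_congr rfl fun r _ => ?_
        simp_rw [← Ex_const_mul]
        rw [← Ex_sum]
        refine Ex_congr fun z => ?_
        rw [KK, Finset.mul_sum]
        refine Finset.sum_congr rfl fun ω _ => ?_
        ring
    _ ≤ ∑ ω, Λ ω * (1 / 4 * Ex π (fun z => AA Λ M b T z * ee M b ω T z)) :=
        Finset.sum_le_sum fun ω _ => mul_le_mul_of_nonneg_left (energy_one H ω) (H.hΛ ω)
    _ = 1 / 4 * Ex π (fun z => AA Λ M b T z ^ 2) := by
        simp_rw [← Ex_const_mul]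
        rw [← Ex_sum]
        refine Ex_congr fun z => ?_
        have hAA : AA Λ M b T z ^ 2 = AA Λ M b T z * ∑ ω, Λ ω * ee M b ω T z := by
          rw [pow_two]
          rfl
        rw [hAA, Finset.mul_sum, Finset.mul_sum]
        refine Finset.sum_congr rfl fun ω _ => ?_
        ring

/-- The quantity to bound. -/
def DD (Λ : Ω → ℝ) (M : Ω → ℕ → Ξ → ℝ) (r : ℕ) (z : Ξ) : ℝ :=
  ∑ ω, Λ ω * |psi (M ω r z) - psi (M ω (r + 1) z)|

lemma psi_of_Mhat (H : MartHyp π Λ T rel M b) {ω : Ω} {r : ℕ} {z : Ξ}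
    (h : Mhat M b ω r z < 1 / 4) : psi (M ω r z) = b ω z := by
  unfold Mhat at h
  have h' := abs_lt.mp h
  rcases H.hb01 ω z with hb | hb
  · rw [hb] at h' ⊢
    exact psi_of_le (by linarith [h'.2])
  · rw [hb] at h' ⊢
    exact psi_of_ge (by linarith [h'.1])

lemma psi_step_le (H : MartHyp π Λ T rel M b) (ω : Ω) (r : ℕ) (z : Ξ) :
    |psi (M ω r z) - psi (M ω (r + 1) z)| ≤
      2 * (ee M b ω r z * |M ω (r + 1) z - M ω r z|) + nu M b ω (r + 1) z := by
  have hmono := ee_mono (M := M) (b := b) ω (Nat.le_succ r) z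
  have hnu : nu M b ω (r + 1) z = ee M b ω (r + 1) z - ee M b ω r z := rfl
  rw [hnu]
  rcases ee_01 (M := M) (b := b) ω r z with h0 | h0
  · rcases ee_01 (M := M) (b := b) ω (r + 1) z with h1 | h1
    · rw [h0, h1]
      rw [psi_of_Mhat H (ee_eq_zero_imp h1 (Nat.le_succ r)),
        psi_of_Mhat H (ee_eq_zero_imp h1 le_rfl)]
      simp
    · rw [h0, h1]
      have := psi_abs_sub_le_one (M ω r z) (M ω (r + 1) z)
      linarith
  · have h1 : ee M b ω (r + 1) z = 1 := by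
      have := ee_le_one (M := M) (b := b) ω (r + 1) z
      rw [h0] at hmono
      linarith
    rw [h0, h1]
    have := psi_lip (M ω r z) (M ω (r + 1) z)
    rw [abs_sub_comm (M ω r z)] at this
    linarith

lemma DD_le (H : MartHyp π Λ T rel M b) (r : ℕ) (z : Ξ) :
    DD Λ M r z ≤ 2 * (∑ ω, Λ ω * (ee M b ω r z * |M ω (r + 1) z - M ω r z|)) +
      aa Λ M b (r + 1) z := by
  unfold DD aa
  rw [Finset.mul_sum, ← Finset.sum_add_distrib]
  refine Finset.sum_le_sum fun ω _ => ?_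
  have := mul_le_mul_of_nonneg_left (psi_step_le H ω r z) (H.hΛ ω)
  linarith

lemma CS_entered (H : MartHyp π Λ T rel M b) (r : ℕ) (z : Ξ) :
    (∑ ω, Λ ω * (ee M b ω r z * |M ω (r + 1) z - M ω r z|)) ^ 2 ≤
      AA Λ M b r z * KK Λ M b r z := by
  apply Finset.sum_sq_le_sum_mul_sum_of_sq_le_mul
  · intro ω _
    exact mul_nonneg (H.hΛ ω) (ee_nonneg ω r z)
  · intro ω _
    exact mul_nonneg (H.hΛ ω) (mul_nonneg (ee_nonneg ω r z) (sq_nonneg _))
  · intro ω _
    apply le_of_eq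
    have h01 : ee M b ω r z ^ 2 = ee M b ω r z := by
      rcases ee_01 (M := M) (b := b) ω r z with h | h <;> rw [h] <;> norm_num
    rw [mul_pow, mul_pow, sq_abs, h01]
    ring_nf
    rw [h01]

lemma DD_sq_le (H : MartHyp π Λ T rel M b) (r : ℕ) (z : Ξ) :
    DD Λ M r z ^ 2 ≤ 8 * (AA Λ M b r z * KK Λ M b r z) + 2 * aa Λ M b (r + 1) z ^ 2 := by
  have h1 := DD_le H r z
  have h2 := CS_entered H r z
  have h0 : 0 ≤ DD Λ M r z :=
    Finset.sum_nonneg fun ω _ => mul_nonneg (H.hΛ ω) (abs_nonneg _)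
  set X := ∑ ω, Λ ω * (ee M b ω r z * |M ω (r + 1) z - M ω r z|) with hX
  have h3 : DD Λ M r z ^ 2 ≤ (2 * X + aa Λ M b (r + 1) z) ^ 2 :=
    pow_le_pow_left₀ h0 h1 2
  nlinarith [sq_nonneg (2 * X - aa Λ M b (r + 1) z)]

lemma sum_sq_le_sq_sum (a : ℕ → ℝ) (ha : ∀ q, 0 ≤ a q) (N : ℕ) :
    ∑ q ∈ range N, a q ^ 2 ≤ (∑ q ∈ range N, a q) ^ 2 := by
  induction N with
  | zero => simp
  | succ N ih =>
    rw [Finset.sum_range_succ, Finset.sum_range_succ]
    have : 0 ≤ ∑ q ∈ range N, a q := Finset.sum_nonneg fun q _ => ha q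
    nlinarith [ha N]

lemma sum_aa_sq_le (H : MartHyp π Λ T rel M b) (z : Ξ) :
    ∑ r ∈ range T, aa Λ M b (r + 1) z ^ 2 ≤ AA Λ M b T z ^ 2 := by
  have h1 := sum_sq_le_sq_sum (fun r => aa Λ M b (r + 1) z) (fun r => aa_nonneg H _ z) T
  refine h1.trans ?_
  apply pow_le_pow_left₀ (Finset.sum_nonneg fun q _ => aa_nonneg H _ z)
  rw [← sum_range_aa, Finset.sum_range_succ' _ T]
  linarith [aa_nonneg H 0 z]

/-- The abstract inequality. -/
theorem abstract_main (H : MartHyp π Λ T rel M b) :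
    ∑ r ∈ range T, Ex π (fun z => DD Λ M r z ^ 2) ≤
      256 * Ex π (fun z => (∑ ω, Λ ω * |M ω T z - b ω z|) ^ 2) := by
  have h1 : ∑ r ∈ range T, Ex π (fun z => DD Λ M r z ^ 2) ≤
      8 * ∑ r ∈ range T, Ex π (fun z => AA Λ M b r z * KK Λ M b r z) +
      2 * Ex π (fun z => ∑ r ∈ range T, aa Λ M b (r + 1) z ^ 2) := by
    rw [Finset.mul_sum, Ex_sum, Finset.mul_sum, ← Finset.sum_add_distrib]
    refine Finset.sum_le_sum fun r _ => ?_
    rw [← Ex_const_mul, ← Ex_const_mul, ← Ex_add]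
    exact Ex_mono H.hπ fun z => DD_sq_le H r z
  have h2 := energy_total H
  have h3 : Ex π (fun z => ∑ r ∈ range T, aa Λ M b (r + 1) z ^ 2) ≤
      Ex π (fun z => AA Λ M b T z ^ 2) :=
    Ex_mono H.hπ fun z => sum_aa_sq_le H z
  have h4 := AA_sq_le H
  have h5 : Ex π (fun z => LL Λ M b T z ^ 2) =
      Ex π (fun z => (∑ ω, Λ ω * |M ω T z - b ω z|) ^ 2) := rfl
  rw [h5] at h4
  linarith

end Abstract

end

end Crest.Agent.Lib.MarkovCotype
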