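import Crest.Agent.Lib.MarkovCotype.Path

/-!
The finite cut theorem: the metric Markov cotype inequality for a finite family of cuts.
-/

set_option autoImplicit false
set_option linter.unusedSectionVars false
set_option linter.unnecessarySeqFocus false
set_option linter.unusedVariables false
set_option linter.style.longLine false

namespace Crest.Agent.Lib.MarkovCotype

open Finset

noncomputable section

universe u v

variable {V : Type u} [Fintype V] [DecidableEq V] {Ω : Type v} [Fintype Ω]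
variable {w : V → ℝ} {A : Matrix V V ℝ}

/-- The heat flow `A^s f`. -/
def heat (A : Matrix V V ℝ) (f : V → ℝ) (s : ℕ) : V → ℝ := (A ^ s).mulVec f

lemma pow_entry_nonneg (hA : ∀ i j, 0 ≤ A i j) (s : ℕ) (i j : V) : 0 ≤ (A ^ s) i j := by
  induction s generalizing i j with
  | zero =>
    simp only [pow_zero, Matrix.one_apply]
    split_ifs <;> norm_num
  | succ s ih =>
    rw [pow_succ, Matrix.mul_apply]
    exact Finset.sum_nonneg fun k _ => mul_nonneg (ih i k) (hA k j)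

lemma pow_row_sum (hA1 : ∀ i, ∑ j, A i j = 1) (s : ℕ) (i : V) : ∑ j, (A ^ s) i j = 1 := by
  induction s with
  | zero =>
    simp [Matrix.one_apply]
  | succ s ih =>
    simp_rw [pow_succ, Matrix.mul_apply]
    rw [Finset.sum_comm]
    simp_rw [← Finset.mul_sum, hA1, mul_one]
    exact ih

lemma heat_apply (f : V → ℝ) (s : ℕ) (i : V) : heat A f s i = ∑ j, (A ^ s) i j * f j := rfl

lemma heat_bounds (hA : ∀ i j, 0 ≤ A i j) (hA1 : ∀ i, ∑ j, A i j = 1) {f : V → ℝ}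
    (hf : ∀ i, f i = 0 ∨ f i = 1) (s : ℕ) (i : V) : 0 ≤ heat A f s i ∧ heat A f s i ≤ 1 := by
  rw [heat_apply]
  have h01 : ∀ j, 0 ≤ f j ∧ f j ≤ 1 := fun j => by
    rcases hf j with h | h <;> rw [h] <;> norm_num
  constructor
  · exact Finset.sum_nonneg fun j _ => mul_nonneg (pow_entry_nonneg hA s i j) (h01 j).1
  · calc ∑ j, (A ^ s) i j * f j ≤ ∑ j, (A ^ s) i j * 1 :=
        Finset.sum_le_sum fun j _ =>
          mul_le_mul_of_nonneg_left (h01 j).2 (pow_entry_nonneg hA s i j)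
      _ = 1 := by simp_rw [mul_one]; exact pow_row_sum hA1 s i

lemma heat_succ (f : V → ℝ) (s : ℕ) : heat A f (s + 1) = A.mulVec (heat A f s) := by
  unfold heat
  rw [pow_succ', Matrix.mulVec_mulVec]

lemma heat_zero (f : V → ℝ) : heat A f 0 = f := by
  unfold heat
  rw [pow_zero, Matrix.one_mulVec]

/-- The martingale on the path space. -/
def pathM (A : Matrix V V ℝ) (f : Ω → V → ℝ) (T : ℕ) (ω : Ω) (r : ℕ) (z : Path V T) : ℝ :=
  heat A (f ω) (T - r) (Path.ev z r)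

/-- The Boolean start value on the path space. -/
def pathB (f : Ω → V → ℝ) (T : ℕ) (ω : Ω) (z : Path V T) : ℝ := f ω (Path.ev z 0)

lemma martHyp_path (hw : ∀ i, 0 ≤ w i) (hA : ∀ i j, 0 ≤ A i j) (hA1 : ∀ i, ∑ j, A i j = 1)
    {Λ : Ω → ℝ} (hΛ : ∀ ω, 0 ≤ Λ ω) {f : Ω → V → ℝ} (hf : ∀ ω i, f ω i = 0 ∨ f ω i = 1) (T : ℕ) :
    MartHyp (pw w A T) Λ T (pathRel T) (pathM A f T) (pathB f T) where
  hπ := pw_nonneg hw hA T
  hΛ := hΛ
  hrel := fun r z z' h => pathRel_succ h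
  hM := fun ω r z z' h => by
    unfold pathM
    rw [h r le_rfl]
  hb := fun ω z z' h => by
    unfold pathB
    rw [h 0 le_rfl]
  hb01 := fun ω z => hf ω _
  hM01 := fun ω r z => heat_bounds hA hA1 (hf ω) _ _
  hMT := fun ω z => by
    unfold pathM
    rw [Nat.sub_self, heat_zero]
    exact hf ω _
  hmart := fun ω r hr g hg => by
    have h := path_mart (w := w) hA1 (heat A (f ω) (T - (r + 1))) r T hr g hg
    rw [← h]
    refine Ex_congr fun z => ?_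
    unfold pathM
    have hT : T - r = (T - (r + 1)) + 1 := by omega
    rw [hT, heat_succ]

/-- The edge bound coming from the abstract inequality. -/
theorem cut_edge_bound (hw : ∀ i, 0 ≤ w i) (hA : ∀ i j, 0 ≤ A i j) (hA1 : ∀ i, ∑ j, A i j = 1)
    (hrev : ∀ i j, w i * A i j = w j * A j i)
    {Λ : Ω → ℝ} (hΛ : ∀ ω, 0 ≤ Λ ω) {f : Ω → V → ℝ} (hf : ∀ ω i, f ω i = 0 ∨ f ω i = 1) (T : ℕ) :
    ∑ s ∈ range T, ∑ i, ∑ j, w i * A i j *
        (∑ ω, Λ ω * |psi (heat A (f ω) (s + 1) i) - psi (heat A (f ω) s j)|) ^ 2 ≤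
      256 * ∑ i, ∑ j, w i * (A ^ T) i j * (∑ ω, Λ ω * |f ω i - f ω j|) ^ 2 := by
  have hmain := abstract_main (martHyp_path (w := w) hw hA hA1 hΛ hf T)
  set G : ℕ → ℝ := fun s => ∑ i, ∑ j, w i * A i j *
        (∑ ω, Λ ω * |psi (heat A (f ω) (s + 1) i) - psi (heat A (f ω) s j)|) ^ 2 with hG
  have hL : ∀ r ∈ range T, Ex (pw w A T) (fun z => DD Λ (pathM A f T) r z ^ 2) = G (T - 1 - r) := by
    intro r hr
    have hr' := mem_range.mp hr
    have := law_pair (w := w) hA1 hrev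
      (fun a c => (∑ ω, Λ ω * |psi (heat A (f ω) (T - r) a) - psi (heat A (f ω) (T - (r + 1)) c)|) ^ 2)
      r T hr'
    have h1 : T - 1 - r + 1 = T - r := by omega
    have h2 : T - 1 - r = T - (r + 1) := by omega
    rw [hG]
    beta_reduce
    rw [h1, h2, ← this]
    rfl
  rw [Finset.sum_congr rfl hL, Finset.sum_range_reflect G T] at hmain
  refine hmain.trans (le_of_eq ?_)
  congr 1
  have := law_ends (w := w) (A := A)
    (fun a c => (∑ ω, Λ ω * |f ω a - f ω c|) ^ 2) T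
  rw [← this]
  refine Ex_congr fun z => ?_
  unfold pathM pathB
  rw [Nat.sub_self]
  simp_rw [heat_zero]
  refine congrArg (· ^ 2) (Finset.sum_congr rfl fun ω _ => ?_)
  rw [abs_sub_comm]

/-- Average of the two clamped heat flows. -/
def uu (A : Matrix V V ℝ) (f : V → ℝ) (s : ℕ) (i : V) : ℝ :=
  (psi (heat A f (s + 1) i) + psi (heat A f s i)) / 2

/-- The cut metric. -/
def cutDist (Λ : Ω → ℝ) (f : Ω → V → ℝ) (i j : V) : ℝ := ∑ ω, Λ ω * |f ω i - f ω j|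

/-- The second moment of the distance at time `q`. -/
def phi (w : V → ℝ) (A : Matrix V V ℝ) (d : V → V → ℝ) (q : ℕ) : ℝ :=
  ∑ i, ∑ j, w i * (A ^ q) i j * d i j ^ 2

lemma sum_edge_bound (hw : ∀ i, 0 ≤ w i) (hA : ∀ i j, 0 ≤ A i j) (hA1 : ∀ i, ∑ j, A i j = 1)
    (hrev : ∀ i j, w i * A i j = w j * A j i)
    {Λ : Ω → ℝ} (hΛ : ∀ ω, 0 ≤ Λ ω) {f : Ω → V → ℝ} (hf : ∀ ω i, f ω i = 0 ∨ f ω i = 1) (T : ℕ) :
    ∑ s ∈ range T, ∑ i, ∑ j, w i * A i j *
        (∑ ω, Λ ω * |uu A (f ω) s i - uu A (f ω) s j|) ^ 2 ≤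
      256 * phi w A (cutDist Λ f) T := by
  refine le_trans ?_ (cut_edge_bound hw hA hA1 hrev hΛ hf T)
  refine Finset.sum_le_sum fun s _ => ?_
  set D : V → V → ℝ := fun i j => ∑ ω, Λ ω * |psi (heat A (f ω) (s + 1) i) - psi (heat A (f ω) s j)| with hD
  have hD0 : ∀ i j, 0 ≤ D i j := fun i j =>
    Finset.sum_nonneg fun ω _ => mul_nonneg (hΛ ω) (abs_nonneg _)
  have h1 : ∀ i j, (∑ ω, Λ ω * |uu A (f ω) s i - uu A (f ω) s j|) ^ 2 ≤ (D i j ^ 2 + D j i ^ 2) / 2 := by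
    intro i j
    have h2 : ∑ ω, Λ ω * |uu A (f ω) s i - uu A (f ω) s j| ≤ (D i j + D j i) / 2 := by
      rw [hD]
      beta_reduce
      rw [← Finset.sum_add_distrib, Finset.sum_div]
      refine Finset.sum_le_sum fun ω _ => ?_
      have h3 : |uu A (f ω) s i - uu A (f ω) s j| ≤
          (|psi (heat A (f ω) (s + 1) i) - psi (heat A (f ω) s j)| +
            |psi (heat A (f ω) (s + 1) j) - psi (heat A (f ω) s i)|) / 2 := by
        unfold uu
        have : (psi (heat A (f ω) (s + 1) i) + psi (heat A (f ω) s i)) / 2 -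
            (psi (heat A (f ω) (s + 1) j) + psi (heat A (f ω) s j)) / 2 =
            ((psi (heat A (f ω) (s + 1) i) - psi (heat A (f ω) s j)) -
              (psi (heat A (f ω) (s + 1) j) - psi (heat A (f ω) s i))) / 2 := by ring
        rw [this, abs_div, abs_of_pos (by norm_num : (0 : ℝ) < 2)]
        apply div_le_div_of_nonneg_right (abs_sub _ _) (by norm_num)
      have := mul_le_mul_of_nonneg_left h3 (hΛ ω)
      calc _ ≤ _ := this
        _ = _ := by ring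
    have h4 : 0 ≤ ∑ ω, Λ ω * |uu A (f ω) s i - uu A (f ω) s j| :=
      Finset.sum_nonneg fun ω _ => mul_nonneg (hΛ ω) (abs_nonneg _)
    have h5 := pow_le_pow_left₀ h4 h2 2
    nlinarith [sq_nonneg (D i j - D j i)]
  calc ∑ i, ∑ j, w i * A i j * (∑ ω, Λ ω * |uu A (f ω) s i - uu A (f ω) s j|) ^ 2
      ≤ ∑ i, ∑ j, w i * A i j * ((D i j ^ 2 + D j i ^ 2) / 2) :=
        Finset.sum_le_sum fun i _ => Finset.sum_le_sum fun j _ =>
          mul_le_mul_of_nonneg_left (h1 i j) (mul_nonneg (hw i) (hA i j))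
    _ = (∑ i, ∑ j, w i * A i j * D i j ^ 2 + ∑ i, ∑ j, w i * A i j * D j i ^ 2) / 2 := by
        rw [← Finset.sum_add_distrib, Finset.sum_div]
        refine Finset.sum_congr rfl fun i _ => ?_
        rw [← Finset.sum_add_distrib, Finset.sum_div]
        refine Finset.sum_congr rfl fun j _ => ?_
        ring
    _ = ∑ i, ∑ j, w i * A i j * D i j ^ 2 := by
        have : ∑ i, ∑ j, w i * A i j * D j i ^ 2 = ∑ i, ∑ j, w i * A i j * D i j ^ 2 := by
          rw [Finset.sum_comm]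
          refine Finset.sum_congr rfl fun i _ => Finset.sum_congr rfl fun j _ => ?_
          rw [hrev j i]
        rw [this]
        ring

lemma abs_heat_sub_le (hA : ∀ i j, 0 ≤ A i j) (hA1 : ∀ i, ∑ j, A i j = 1) (f : V → ℝ) (q : ℕ) (i : V) :
    |heat A f q i - f i| ≤ ∑ j, (A ^ q) i j * |f i - f j| := by
  have h1 : heat A f q i - f i = ∑ j, (A ^ q) i j * (f j - f i) := by
    rw [heat_apply]
    simp_rw [mul_sub]
    rw [Finset.sum_sub_distrib, ← Finset.sum_mul, pow_row_sum hA1, one_mul]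
  rw [h1]
  refine (Finset.abs_sum_le_sum_abs _ _).trans (Finset.sum_le_sum fun j _ => ?_)
  rw [abs_mul, abs_of_nonneg (pow_entry_nonneg hA q i j), abs_sub_comm]

lemma abs_uu_sub_le (hA : ∀ i j, 0 ≤ A i j) (hA1 : ∀ i, ∑ j, A i j = 1) {f : V → ℝ}
    (hf : ∀ i, f i = 0 ∨ f i = 1) (s : ℕ) (i : V) :
    |uu A f s i - f i| ≤ 2 / 3 * (|heat A f (s + 1) i - f i| + |heat A f s i - f i|) := by
  have h1 := psi_close (hf i) (heat_bounds hA hA1 hf (s + 1) i).1 (heat_bounds hA hA1 hf (s + 1) i).2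
  have h2 := psi_close (hf i) (heat_bounds hA hA1 hf s i).1 (heat_bounds hA hA1 hf s i).2
  have h3 : uu A f s i - f i = ((psi (heat A f (s + 1) i) - f i) + (psi (heat A f s i) - f i)) / 2 := by
    unfold uu
    ring
  rw [h3, abs_div, abs_of_pos (by norm_num : (0 : ℝ) < 2)]
  have h4 := abs_add_le (psi (heat A f (s + 1) i) - f i) (psi (heat A f s i) - f i)
  linarith

/-- Moment of the distance from `i` at time `q`. -/
def moment (A : Matrix V V ℝ) (d : V → V → ℝ) (q : ℕ) (i : V) : ℝ := ∑ j, (A ^ q) i j * d i j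

lemma moment_sq_le (hA : ∀ i j, 0 ≤ A i j) (hA1 : ∀ i, ∑ j, A i j = 1) (d : V → V → ℝ) (q : ℕ) (i : V) :
    moment A d q i ^ 2 ≤ ∑ j, (A ^ q) i j * d i j ^ 2 := by
  unfold moment
  have := Finset.sum_sq_le_sum_mul_sum_of_sq_le_mul (s := univ) (r := fun j => (A ^ q) i j * d i j)
    (f := fun j => (A ^ q) i j) (g := fun j => (A ^ q) i j * d i j ^ 2)
    (fun j _ => pow_entry_nonneg hA q i j)
    (fun j _ => mul_nonneg (pow_entry_nonneg hA q i j) (sq_nonneg _))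
    (fun j _ => le_of_eq (by ring))
  rwa [pow_row_sum hA1, one_mul] at this

lemma sum_cut_abs_uu_le (hA : ∀ i j, 0 ≤ A i j) (hA1 : ∀ i, ∑ j, A i j = 1)
    {Λ : Ω → ℝ} (hΛ : ∀ ω, 0 ≤ Λ ω) {f : Ω → V → ℝ} (hf : ∀ ω i, f ω i = 0 ∨ f ω i = 1) (s : ℕ) (i : V) :
    ∑ ω, Λ ω * |uu A (f ω) s i - f ω i| ≤
      2 / 3 * (moment A (cutDist Λ f) (s + 1) i + moment A (cutDist Λ f) s i) := by
  have key : ∀ q, ∑ ω, Λ ω * |heat A (f ω) q i - f ω i| ≤ moment A (cutDist Λ f) q i := by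
    intro q
    unfold moment cutDist
    simp_rw [Finset.mul_sum]
    rw [Finset.sum_comm]
    refine Finset.sum_le_sum fun ω _ => ?_
    have := mul_le_mul_of_nonneg_left (abs_heat_sub_le hA hA1 (f ω) q i) (hΛ ω)
    rw [Finset.mul_sum] at this
    refine this.trans (le_of_eq ?_)
    refine Finset.sum_congr rfl fun j _ => ?_
    ring
  calc ∑ ω, Λ ω * |uu A (f ω) s i - f ω i|
      ≤ ∑ ω, Λ ω * (2 / 3 * (|heat A (f ω) (s + 1) i - f ω i| + |heat A (f ω) s i - f ω i|)) :=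
        Finset.sum_le_sum fun ω _ =>
          mul_le_mul_of_nonneg_left (abs_uu_sub_le hA hA1 (hf ω) s i) (hΛ ω)
    _ = 2 / 3 * (∑ ω, Λ ω * |heat A (f ω) (s + 1) i - f ω i| + ∑ ω, Λ ω * |heat A (f ω) s i - f ω i|) := by
        rw [← Finset.sum_add_distrib, Finset.mul_sum]
        refine Finset.sum_congr rfl fun ω _ => ?_
        ring
    _ ≤ _ := by
        have h1 := key (s + 1)
        have h2 := key s
        linarith

lemma phi_nonneg (hw : ∀ i, 0 ≤ w i) (hA : ∀ i j, 0 ≤ A i j) (d : V → V → ℝ) (q : ℕ) :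
    0 ≤ phi w A d q :=
  Finset.sum_nonneg fun i _ => Finset.sum_nonneg fun j _ =>
    mul_nonneg (mul_nonneg (hw i) (pow_entry_nonneg hA q i j)) (sq_nonneg _)

lemma cutDist_self (Λ : Ω → ℝ) (f : Ω → V → ℝ) (i : V) : cutDist Λ f i i = 0 := by
  simp [cutDist]

lemma phi_zero {d : V → V → ℝ} (hd : ∀ i, d i i = 0) : phi w A d 0 = 0 := by
  unfold phi
  refine Finset.sum_eq_zero fun i _ => Finset.sum_eq_zero fun j _ => ?_
  by_cases h : i = j
  · subst h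
    simp [hd]
  · simp [h]

lemma sum_x_one (hw : ∀ i, 0 ≤ w i) (hA : ∀ i j, 0 ≤ A i j) (hA1 : ∀ i, ∑ j, A i j = 1)
    {Λ : Ω → ℝ} (hΛ : ∀ ω, 0 ≤ Λ ω) {f : Ω → V → ℝ} (hf : ∀ ω i, f ω i = 0 ∨ f ω i = 1) (s : ℕ) :
    ∑ i, w i * (∑ ω, Λ ω * |uu A (f ω) s i - f ω i|) ^ 2 ≤
      8 / 9 * (phi w A (cutDist Λ f) (s + 1) + phi w A (cutDist Λ f) s) := by
  unfold phi
  rw [← Finset.sum_add_distrib, Finset.mul_sum]
  refine Finset.sum_le_sum fun i _ => ?_
  have hfac : ∀ q, ∑ j, w i * (A ^ q) i j * cutDist Λ f i j ^ 2 =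
      w i * ∑ j, (A ^ q) i j * cutDist Λ f i j ^ 2 := fun q => by
    rw [Finset.mul_sum]
    refine Finset.sum_congr rfl fun j _ => ?_
    ring
  rw [hfac, hfac]
  have hfac2 : ∀ a b : ℝ, 8 / 9 * (w i * a + w i * b) = w i * (8 / 9 * (a + b)) := fun a b => by ring
  rw [hfac2]
  apply mul_le_mul_of_nonneg_left _ (hw i)
  have h1 := sum_cut_abs_uu_le hA hA1 hΛ hf s i
  have h0 : 0 ≤ ∑ ω, Λ ω * |uu A (f ω) s i - f ω i| :=
    Finset.sum_nonneg fun ω _ => mul_nonneg (hΛ ω) (abs_nonneg _)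
  have h2 := pow_le_pow_left₀ h0 h1 2
  have h3 := moment_sq_le hA hA1 (cutDist Λ f) (s + 1) i
  have h4 := moment_sq_le hA hA1 (cutDist Λ f) s i
  nlinarith [sq_nonneg (moment A (cutDist Λ f) (s + 1) i - moment A (cutDist Λ f) s i)]

lemma sum_range_phi_le (hw : ∀ i, 0 ≤ w i) (hA : ∀ i j, 0 ≤ A i j) {d : V → V → ℝ}
    (hd : ∀ i, d i i = 0) (T : ℕ) :
    ∑ s ∈ range T, phi w A d s ≤ ∑ s ∈ range T, phi w A d (s + 1) := by
  have h1 := Finset.sum_range_succ (phi w A d) T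
  have h2 := Finset.sum_range_succ' (phi w A d) T
  rw [phi_zero hd] at h2
  have h3 := phi_nonneg (w := w) hw hA d T
  linarith

lemma sum_x_bound (hw : ∀ i, 0 ≤ w i) (hA : ∀ i j, 0 ≤ A i j) (hA1 : ∀ i, ∑ j, A i j = 1)
    {Λ : Ω → ℝ} (hΛ : ∀ ω, 0 ≤ Λ ω) {f : Ω → V → ℝ} (hf : ∀ ω i, f ω i = 0 ∨ f ω i = 1) (T : ℕ) :
    ∑ s ∈ range T, ∑ i, w i * (∑ ω, Λ ω * |uu A (f ω) s i - f ω i|) ^ 2 ≤
      16 / 9 * ∑ s ∈ range T, phi w A (cutDist Λ f) (s + 1) := by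
  calc _ ≤ ∑ s ∈ range T, 8 / 9 * (phi w A (cutDist Λ f) (s + 1) + phi w A (cutDist Λ f) s) :=
        Finset.sum_le_sum fun s _ => sum_x_one hw hA hA1 hΛ hf s
    _ = 8 / 9 * (∑ s ∈ range T, phi w A (cutDist Λ f) (s + 1) + ∑ s ∈ range T, phi w A (cutDist Λ f) s) := by
        rw [← Finset.sum_add_distrib, Finset.mul_sum]
    _ ≤ _ := by
        have := sum_range_phi_le hw hA (d := cutDist Λ f) (cutDist_self Λ f) T
        linarith

/-- Stationarity at all times. -/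
lemma stationary_pow (hA1 : ∀ i, ∑ j, A i j = 1) (hrev : ∀ i j, w i * A i j = w j * A j i)
    (q : ℕ) (k : V) : ∑ i, w i * (A ^ q) i k = w k := by
  induction q generalizing k with
  | zero =>
    simp [Matrix.one_apply]
  | succ q ih =>
    simp_rw [pow_succ, Matrix.mul_apply, Finset.mul_sum]
    rw [Finset.sum_comm]
    have : ∀ y, ∑ i, w i * ((A ^ q) i y * A y k) = w y * A y k := fun y => by
      rw [← ih y, Finset.sum_mul]
      refine Finset.sum_congr rfl fun i _ => ?_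
      ring
    simp_rw [this]
    exact stationary hA1 hrev k

lemma phi_add_le (hw : ∀ i, 0 ≤ w i) (hA : ∀ i j, 0 ≤ A i j) (hA1 : ∀ i, ∑ j, A i j = 1)
    (hrev : ∀ i j, w i * A i j = w j * A j i) {d : V → V → ℝ}
    (hd : ∀ i j k, d i j ≤ d i k + d k j) (hd0 : ∀ i j, 0 ≤ d i j) (p q : ℕ) :
    phi w A d (p + q) ≤ 2 * phi w A d p + 2 * phi w A d q := by
  have h1 : phi w A d (p + q) = ∑ i, ∑ k, ∑ j, w i * (A ^ p) i k * (A ^ q) k j * d i j ^ 2 := by
    unfold phi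
    refine Finset.sum_congr rfl fun i _ => ?_
    simp_rw [pow_add, Matrix.mul_apply, Finset.mul_sum, Finset.sum_mul]
    rw [Finset.sum_comm]
    refine Finset.sum_congr rfl fun k _ => Finset.sum_congr rfl fun j _ => ?_
    ring
  have h2 : phi w A d p = ∑ i, ∑ k, ∑ j, w i * (A ^ p) i k * (A ^ q) k j * d i k ^ 2 := by
    unfold phi
    refine Finset.sum_congr rfl fun i _ => Finset.sum_congr rfl fun k _ => ?_
    have : ∀ j, w i * (A ^ p) i k * (A ^ q) k j * d i k ^ 2 =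
        (w i * (A ^ p) i k * d i k ^ 2) * (A ^ q) k j := fun j => by ring
    simp_rw [this]
    rw [← Finset.mul_sum, pow_row_sum hA1, mul_one]
  have h3 : phi w A d q = ∑ i, ∑ k, ∑ j, w i * (A ^ p) i k * (A ^ q) k j * d k j ^ 2 := by
    unfold phi
    symm
    calc ∑ i, ∑ k, ∑ j, w i * (A ^ p) i k * (A ^ q) k j * d k j ^ 2
        = ∑ k, ∑ i, ∑ j, w i * (A ^ p) i k * (A ^ q) k j * d k j ^ 2 := Finset.sum_comm
      _ = ∑ k, ∑ j, ∑ i, w i * (A ^ p) i k * (A ^ q) k j * d k j ^ 2 :=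
          Finset.sum_congr rfl fun k _ => Finset.sum_comm
      _ = ∑ k, ∑ j, w k * (A ^ q) k j * d k j ^ 2 := by
          refine Finset.sum_congr rfl fun k _ => Finset.sum_congr rfl fun j _ => ?_
          rw [← stationary_pow hA1 hrev p k, Finset.sum_mul, Finset.sum_mul]
  rw [h1, h2, h3, Finset.mul_sum, Finset.mul_sum, ← Finset.sum_add_distrib]
  refine Finset.sum_le_sum fun i _ => ?_
  rw [Finset.mul_sum, Finset.mul_sum, ← Finset.sum_add_distrib]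
  refine Finset.sum_le_sum fun k _ => ?_
  rw [Finset.mul_sum, Finset.mul_sum, ← Finset.sum_add_distrib]
  refine Finset.sum_le_sum fun j _ => ?_
  have h4 : 0 ≤ w i * (A ^ p) i k * (A ^ q) k j :=
    mul_nonneg (mul_nonneg (hw i) (pow_entry_nonneg hA p i k)) (pow_entry_nonneg hA q k j)
  have h5 : d i j ^ 2 ≤ 2 * d i k ^ 2 + 2 * d k j ^ 2 := by
    have h6 := pow_le_pow_left₀ (hd0 i j) (hd i j k) 2
    nlinarith [sq_nonneg (d i k - d k j)]
  have := mul_le_mul_of_nonneg_left h5 h4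
  linarith

/-- `T φ(T) ≤ 8 ∑_{q ≤ T} φ(q)`. -/
lemma mul_phi_le (hw : ∀ i, 0 ≤ w i) (hA : ∀ i j, 0 ≤ A i j) (hA1 : ∀ i, ∑ j, A i j = 1)
    (hrev : ∀ i j, w i * A i j = w j * A j i) {d : V → V → ℝ}
    (hd : ∀ i j k, d i j ≤ d i k + d k j) (hd0 : ∀ i j, 0 ≤ d i j) (N : ℕ) :
    ((N + 1 : ℕ) : ℝ) * phi w A d (N + 1) ≤ 8 * ∑ s ∈ range (N + 1), phi w A d (s + 1) := by
  have h1 : ∀ q ∈ range N, phi w A d (N + 1) ≤ 2 * phi w A d (q + 1) + 2 * phi w A d (N - 1 - q + 1) := by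
    intro q hq
    have hq' := mem_range.mp hq
    have := phi_add_le hw hA hA1 hrev hd hd0 (q + 1) (N - 1 - q + 1)
    have h2 : q + 1 + (N - 1 - q + 1) = N + 1 := by omega
    rwa [h2] at this
  have h2 := Finset.sum_le_sum h1
  rw [Finset.sum_const, card_range, nsmul_eq_mul, Finset.sum_add_distrib, ← Finset.mul_sum,
    ← Finset.mul_sum, Finset.sum_range_reflect (fun s => phi w A d (s + 1)) N] at h2
  rw [Finset.sum_range_succ]
  push_cast
  have h3 := phi_nonneg (w := w) hw hA d (N + 1)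
  have h4 : 0 ≤ ∑ s ∈ range N, phi w A d (s + 1) :=
    Finset.sum_nonneg fun s _ => phi_nonneg hw hA d (s + 1)
  nlinarith

lemma cutDist_triangle {Λ : Ω → ℝ} (hΛ : ∀ ω, 0 ≤ Λ ω) (f : Ω → V → ℝ) (i j k : V) :
    cutDist Λ f i j ≤ cutDist Λ f i k + cutDist Λ f k j := by
  unfold cutDist
  rw [← Finset.sum_add_distrib]
  refine Finset.sum_le_sum fun ω _ => ?_
  have := abs_sub_le (f ω i) (f ω k) (f ω j)
  have := mul_le_mul_of_nonneg_left this (hΛ ω)
  linarith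

lemma cutDist_nonneg {Λ : Ω → ℝ} (hΛ : ∀ ω, 0 ≤ Λ ω) (f : Ω → V → ℝ) (i j : V) :
    0 ≤ cutDist Λ f i j :=
  Finset.sum_nonneg fun ω _ => mul_nonneg (hΛ ω) (abs_nonneg _)

/-- **The finite cut theorem.** -/
theorem finite_cut (hw : ∀ i, 0 ≤ w i) (hA : ∀ i j, 0 ≤ A i j) (hA1 : ∀ i, ∑ j, A i j = 1)
    (hrev : ∀ i j, w i * A i j = w j * A j i)
    {Λ : Ω → ℝ} (hΛ : ∀ ω, 0 ≤ Λ ω) {f : Ω → V → ℝ} (hf : ∀ ω i, f ω i = 0 ∨ f ω i = 1)
    (T : ℕ) (hT : 1 ≤ T) :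
    ∃ s ∈ range T,
      ∑ i, w i * (∑ ω, Λ ω * |uu A (f ω) s i - f ω i|) ^ 2 +
        (T : ℝ) * ∑ i, ∑ j, w i * A i j * (∑ ω, Λ ω * |uu A (f ω) s i - uu A (f ω) s j|) ^ 2 ≤
      3024 * (1 / (T : ℝ) * ∑ s ∈ range T, phi w A (cutDist Λ f) (s + 1)) := by
  have hTpos : (0 : ℝ) < T := by exact_mod_cast hT
  set Φ := ∑ s ∈ range T, phi w A (cutDist Λ f) (s + 1) with hΦ
  have hΦ0 : 0 ≤ Φ := Finset.sum_nonneg fun s _ => phi_nonneg hw hA _ _
  have h1 := sum_x_bound hw hA hA1 hΛ hf T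
  have h2 := sum_edge_bound hw hA hA1 hrev hΛ hf T
  have h3 : (T : ℝ) * phi w A (cutDist Λ f) T ≤ 8 * Φ := by
    obtain ⟨N, rfl⟩ : ∃ N, T = N + 1 := ⟨T - 1, by omega⟩
    exact mul_phi_le hw hA hA1 hrev (cutDist_triangle hΛ f) (cutDist_nonneg hΛ f) N
  have hsum : ∑ s ∈ range T, (∑ i, w i * (∑ ω, Λ ω * |uu A (f ω) s i - f ω i|) ^ 2 +
        (T : ℝ) * ∑ i, ∑ j, w i * A i j * (∑ ω, Λ ω * |uu A (f ω) s i - uu A (f ω) s j|) ^ 2) ≤
      ∑ s ∈ range T, (3024 * (1 / (T : ℝ) * Φ)) := by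
    rw [Finset.sum_add_distrib, ← Finset.mul_sum, Finset.sum_const, card_range, nsmul_eq_mul]
    have h4 : (T : ℝ) * (3024 * (1 / (T : ℝ) * Φ)) = 3024 * Φ := by
      field_simp
    rw [h4]
    have h5 := mul_le_mul_of_nonneg_left h2 hTpos.le
    nlinarith
  obtain ⟨s, hs, hle⟩ := Finset.exists_le_of_sum_le (nonempty_range_iff.mpr (by omega)) hsum
  exact ⟨s, hs, hle⟩

end

end Crest.Agent.Lib.MarkovCotype
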