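import Crest.Agent.Lib.MarkovCotype.Cut

/-!
From the finite cut theorem to `ℓ¹`.
-/

set_option autoImplicit false
set_option linter.unusedSectionVars false
set_option linter.unnecessarySeqFocus false
set_option linter.unusedVariables false
set_option linter.style.longLine false

namespace Crest.Agent.Lib.MarkovCotype

open Finset

noncomputable section

section Decomp

variable {V : Type*} [Fintype V] [DecidableEq V]

/-- Indicator of a finite set. -/
def ind (S : Finset V) (i : V) : ℝ := if i ∈ S then 1 else 0

lemma ind_01 (S : Finset V) (i : V) : ind S i = 0 ∨ ind S i = 1 := by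
  unfold ind
  split_ifs <;> simp

/-- Every real function on a finite set is a nonnegative combination of cuts, isometrically. -/
lemma exists_cut_decomp_aux (n : ℕ) (a : V → ℝ) (hn : (univ.image a).card ≤ n) :
    ∃ lam : Finset V → ℝ, (∀ S, 0 ≤ lam S) ∧
      (∀ i j, a i - a j = ∑ S, lam S * (ind S i - ind S j)) ∧
      (∀ i j, |a i - a j| = ∑ S, lam S * |ind S i - ind S j|) := by
  induction n generalizing a with
  | zero =>
    refine ⟨0, fun _ => le_rfl, ?_, ?_⟩
    · intro i j
      have : a i ∈ univ.image a := mem_image_of_mem a (mem_univ i)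
      have h0 : univ.image a = ∅ := Finset.card_eq_zero.mp (by omega)
      rw [h0] at this
      simp at this
    · intro i j
      have : a i ∈ univ.image a := mem_image_of_mem a (mem_univ i)
      have h0 : univ.image a = ∅ := Finset.card_eq_zero.mp (by omega)
      rw [h0] at this
      simp at this
  | succ n ih =>
    set I := univ.image a with hI
    by_cases hconst : ∀ i j, a i = a j
    · refine ⟨0, fun _ => le_rfl, ?_, ?_⟩
      · intro i j
        simp [hconst i j]
      · intro i j
        simp [hconst i j]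
    push Not at hconst
    obtain ⟨i₀, j₀, hij⟩ := hconst
    have hIne : I.Nonempty := ⟨a i₀, mem_image_of_mem a (mem_univ i₀)⟩
    set m := I.min' hIne with hm
    have hmI : m ∈ I := I.min'_mem hIne
    have hm_le : ∀ i, m ≤ a i := fun i => I.min'_le _ (mem_image_of_mem a (mem_univ i))
    have hEne : (I.erase m).Nonempty := by
      by_cases h : a i₀ = m
      · exact ⟨a j₀, mem_erase.mpr ⟨fun h' => hij (h.trans h'.symm), mem_image_of_mem a (mem_univ j₀)⟩⟩
      · exact ⟨a i₀, mem_erase.mpr ⟨h, mem_image_of_mem a (mem_univ i₀)⟩⟩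
    set m' := (I.erase m).min' hEne with hm'
    have hm'I : m' ∈ I.erase m := (I.erase m).min'_mem hEne
    have hmm' : m < m' := lt_of_le_of_ne (I.min'_le _ (mem_of_mem_erase hm'I)) (ne_of_mem_erase hm'I).symm
    have hdich : ∀ i, a i = m ∨ m' ≤ a i := by
      intro i
      by_cases h : a i = m
      · exact Or.inl h
      · exact Or.inr ((I.erase m).min'_le _ (mem_erase.mpr ⟨h, mem_image_of_mem a (mem_univ i)⟩))
    set a' : V → ℝ := fun i => max (a i) m' with ha'
    have hcard : (univ.image a').card ≤ n := by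
      have hsub : univ.image a' ⊆ I.erase m := by
        intro v hv
        obtain ⟨i, -, rfl⟩ := mem_image.mp hv
        rcases hdich i with h | h
        · have : a' i = m' := by
            simp only [ha']
            rw [max_eq_right (by rw [h]; exact hmm'.le)]
          rw [this]
          exact hm'I
        · have : a' i = a i := by
            simp only [ha']
            rw [max_eq_left h]
          rw [this]
          exact mem_erase.mpr ⟨by intro h'; linarith, mem_image_of_mem a (mem_univ i)⟩
      have h1 := card_le_card hsub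
      rw [card_erase_of_mem hmI] at h1
      omega
    obtain ⟨lam', hlam0, hD1, hD2⟩ := ih a' hcard
    set S₀ : Finset V := univ.filter fun i => m' ≤ a i with hS₀
    set c := m' - m with hc
    have hc0 : 0 < c := sub_pos.mpr hmm'
    have hind : ∀ i, (i ∈ S₀ ∧ a' i = a i ∧ ind S₀ i = 1) ∨ (i ∉ S₀ ∧ a i = m ∧ a' i = m' ∧ ind S₀ i = 0) := by
      intro i
      by_cases h : m' ≤ a i
      · left
        have hi : i ∈ S₀ := by simp [hS₀, h]
        refine ⟨hi, ?_, by simp [ind, hi]⟩
        simp only [ha']
        exact max_eq_left h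
      · right
        have hi : i ∉ S₀ := by simp [hS₀, h]
        have hai : a i = m := (hdich i).resolve_right h
        refine ⟨hi, hai, ?_, by simp [ind, hi]⟩
        simp only [ha']
        rw [hai]
        exact max_eq_right hmm'.le
    have hsumδ : ∀ g : Finset V → ℝ, ∑ S, (lam' S + if S = S₀ then c else 0) * g S =
        ∑ S, lam' S * g S + c * g S₀ := by
      intro g
      simp_rw [add_mul]
      rw [Finset.sum_add_distrib]
      congr 1
      simp
    refine ⟨fun S => lam' S + if S = S₀ then c else 0, ?_, ?_, ?_⟩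
    · intro S
      have := hlam0 S
      beta_reduce
      split_ifs <;> linarith
    · intro i j
      rw [hsumδ (fun S => ind S i - ind S j), ← hD1]
      rcases hind i with ⟨hi, hi2, hi3⟩ | ⟨hi, hi2, hi3, hi4⟩ <;>
        rcases hind j with ⟨hj, hj2, hj3⟩ | ⟨hj, hj2, hj3, hj4⟩
      · rw [hi2, hj2, hi3, hj3]; ring
      · rw [hi2, hj3, hi3, hj4, hj2, hc]; ring
      · rw [hi3, hj2, hi4, hj3, hi2, hc]; ring
      · rw [hi3, hj3, hi2, hj2, hi4, hj4]; ring
    · intro i j
      rw [hsumδ (fun S => |ind S i - ind S j|), ← hD2]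
      rcases hind i with ⟨hi, hi2, hi3⟩ | ⟨hi, hi2, hi3, hi4⟩ <;>
        rcases hind j with ⟨hj, hj2, hj3⟩ | ⟨hj, hj2, hj3, hj4⟩
      · rw [hi2, hj2, hi3, hj3]; simp
      · have haj : m' ≤ a i := by
          by_contra hcon
          exact (by simp [hS₀] at hi; exact hcon hi)
        rw [hi2, hj3, hi3, hj4, hj2, hc, abs_of_nonneg (by linarith), abs_of_nonneg (by linarith)]
        norm_num
      · have haj : m' ≤ a j := by
          by_contra hcon
          exact (by simp [hS₀] at hj; exact hcon hj)
        rw [hi3, hj2, hi4, hj3, hi2, hc, abs_of_nonpos (by linarith), abs_of_nonpos (by linarith)]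
        norm_num
      · rw [hi3, hj3, hi2, hj2, hi4, hj4]; simp

lemma exists_cut_decomp (a : V → ℝ) :
    ∃ lam : Finset V → ℝ, (∀ S, 0 ≤ lam S) ∧
      (∀ i j, a i - a j = ∑ S, lam S * (ind S i - ind S j)) ∧
      (∀ i j, |a i - a j| = ∑ S, lam S * |ind S i - ind S j|) :=
  exists_cut_decomp_aux _ a le_rfl

/-- Same, with vanishing weight on the trivial sets. -/
lemma exists_cut_decomp' (a : V → ℝ) :
    ∃ lam : Finset V → ℝ, (∀ S, 0 ≤ lam S) ∧
      (∀ S, (∀ i j, ind S i = ind S j) → lam S = 0) ∧
      (∀ i j, a i - a j = ∑ S, lam S * (ind S i - ind S j)) ∧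
      (∀ i j, |a i - a j| = ∑ S, lam S * |ind S i - ind S j|) := by
  classical
  obtain ⟨lam, h0, h1, h2⟩ := exists_cut_decomp a
  refine ⟨fun S => if (∀ i j, ind S i = ind S j) then 0 else lam S, ?_, ?_, ?_, ?_⟩
  · intro S
    beta_reduce
    split_ifs
    · exact le_rfl
    · exact h0 S
  · intro S hS
    exact if_pos hS
  · intro i j
    rw [h1 i j]
    refine Finset.sum_congr rfl fun S _ => ?_
    by_cases hS : ∀ i j, ind S i = ind S j
    · have : ind S i - ind S j = 0 := sub_eq_zero.mpr (hS i j)
      simp [this]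
    · beta_reduce
      rw [if_neg hS]
  · intro i j
    rw [h2 i j]
    refine Finset.sum_congr rfl fun S _ => ?_
    by_cases hS : ∀ i j, ind S i = ind S j
    · have : ind S i - ind S j = 0 := sub_eq_zero.mpr (hS i j)
      simp [this]
    · beta_reduce
      rw [if_neg hS]

end Decomp

section L1

/-- The space `ℓ¹`. -/
abbrev X := lp (fun _ : ℕ => ℝ) 1

lemma l1_summable (u : X) : Summable (fun c => |u c|) := by
  have := (lp.memℓp u).summable (by simp)
  simpa using this

lemma l1_norm_eq (u : X) : ‖u‖ = ∑' c, |u c| := by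
  rw [lp.norm_eq_tsum_rpow (by simp)]
  simp

/-- Build an element of `ℓ¹`. -/
def mkL1 (g : ℕ → ℝ) (hg : Summable fun c => |g c|) : X :=
  ⟨g, memℓp_gen (by simpa using hg)⟩

lemma mkL1_apply (g : ℕ → ℝ) (hg : Summable fun c => |g c|) (c : ℕ) : (mkL1 g hg) c = g c := rfl

lemma l1_norm_le {Ω : Type*} [Fintype Ω] (u : X) (lam : ℕ → Ω → ℝ)
    (hsum : ∀ S, Summable (fun c => lam c S)) (C : Ω → ℝ)
    (hu : ∀ c, |u c| ≤ ∑ S, lam c S * C S) :
    ‖u‖ ≤ ∑ S, (∑' c, lam c S) * C S := by
  rw [l1_norm_eq]
  calc ∑' c, |u c| ≤ ∑' c, ∑ S, lam c S * C S :=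
        Summable.tsum_le_tsum hu (l1_summable u) (summable_sum fun S _ => (hsum S).mul_right _)
    _ = ∑ S, ∑' c, lam c S * C S :=
        Summable.tsum_finsetSum (fun S _ => (hsum S).mul_right _)
    _ = ∑ S, (∑' c, lam c S) * C S := by
        simp_rw [tsum_mul_right]

theorem l1_main (n t : ℕ) (ht : 1 ≤ t)
    (w : Fin n → ℝ) (A : Matrix (Fin n) (Fin n) ℝ) (hw : ∀ i, 0 ≤ w i)
    (hA : ∀ i j, 0 ≤ A i j) (hA1 : ∀ i, ∑ j, A i j = 1) (hrev : ∀ i j, w i * A i j = w j * A j i)
    (x : Fin n → X) :
    ∃ y : Fin n → X,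
      ∑ i, w i * dist (x i) (y i) ^ 2 + t * ∑ i, ∑ j, w i * A i j * dist (y i) (y j) ^ 2 ≤
        3024 * (1 / (t : ℝ) * ∑ s ∈ range t, phi w A (fun i j => dist (x i) (x j)) (s + 1)) := by
  classical
  choose lam hlam0 hlam_triv hD1 hD2 using fun c => exists_cut_decomp' (V := Fin n) (fun i => x i c)
  have hsumx : ∀ i j, Summable (fun c => |x i c - x j c|) := fun i j => by
    have := l1_summable (x i - x j)
    simpa using this
  have hsum : ∀ S, Summable (fun c => lam c S) := by
    intro S
    by_cases hS : ∀ i j, ind S i = ind S j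
    · have : (fun c => lam c S) = fun _ => 0 := by
        funext c
        exact hlam_triv c S hS
      rw [this]
      exact summable_zero
    · push Not at hS
      obtain ⟨i, j, hij⟩ := hS
      have habs : |ind S i - ind S j| = 1 := by
        rcases ind_01 S i with h1 | h1 <;> rcases ind_01 S j with h2 | h2 <;> rw [h1, h2] at hij ⊢
        · exact absurd rfl hij
        · norm_num
        · norm_num
        · exact absurd rfl hij
      refine Summable.of_nonneg_of_le (fun c => hlam0 c S) (fun c => ?_) (hsumx i j)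
      rw [hD2 c i j]
      have h1 := Finset.single_le_sum (f := fun T => lam c T * |ind T i - ind T j|)
        (s := univ) (fun T _ => mul_nonneg (hlam0 c T) (abs_nonneg _)) (mem_univ S)
      simp only [habs, mul_one] at h1
      exact h1
  set Λ : Finset (Fin n) → ℝ := fun S => ∑' c, lam c S with hΛdef
  have hΛ : ∀ S, 0 ≤ Λ S := fun S => tsum_nonneg fun c => hlam0 c S
  have hf : ∀ (S : Finset (Fin n)) i, ind S i = 0 ∨ ind S i = 1 := ind_01
  have hdist : ∀ i j, cutDist Λ (fun S => ind S) i j = dist (x i) (x j) := by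
    intro i j
    rw [dist_eq_norm, l1_norm_eq]
    have : ∀ c, |(x i - x j) c| = ∑ S, lam c S * |ind S i - ind S j| := fun c => by
      rw [← hD2 c i j]
      rfl
    simp_rw [this]
    rw [Summable.tsum_finsetSum (fun S _ => (hsum S).mul_right _)]
    unfold cutDist
    refine Finset.sum_congr rfl fun S _ => ?_
    rw [tsum_mul_right]
  obtain ⟨s, hs, hle⟩ := finite_cut (w := w) (A := A) hw hA hA1 hrev hΛ (f := fun S => ind S) hf t ht
  -- the correction
  set z : Fin n → ℕ → ℝ := fun i c => ∑ S, lam c S * (uu A (ind S) s i - ind S i) with hz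
  have hzle : ∀ i c, |z i c| ≤ ∑ S, lam c S * |uu A (ind S) s i - ind S i| := by
    intro i c
    refine (Finset.abs_sum_le_sum_abs _ _).trans (Finset.sum_le_sum fun S _ => ?_)
    rw [abs_mul, abs_of_nonneg (hlam0 c S)]
  have hzsum : ∀ i, Summable (fun c => |z i c|) := by
    intro i
    refine Summable.of_nonneg_of_le (fun c => abs_nonneg _) (hzle i) ?_
    exact summable_sum fun S _ => (hsum S).mul_right _
  set y : Fin n → X := fun i => x i + mkL1 (z i) (hzsum i) with hy
  have hyc : ∀ i c, (y i) c = x i c + z i c := fun i c => rfl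
  refine ⟨y, ?_⟩
  have hxy : ∀ i, dist (x i) (y i) ≤ ∑ S, Λ S * |uu A (ind S) s i - ind S i| := by
    intro i
    rw [dist_comm, dist_eq_norm]
    apply l1_norm_le _ lam hsum
    intro c
    have : (y i - x i) c = z i c := by
      change (y i) c - x i c = z i c
      rw [hyc]
      ring
    rw [this]
    exact hzle i c
  have hyy : ∀ i j, dist (y i) (y j) ≤ ∑ S, Λ S * |uu A (ind S) s i - uu A (ind S) s j| := by
    intro i j
    rw [dist_eq_norm]
    apply l1_norm_le _ lam hsum
    intro c
    have : (y i - y j) c = ∑ S, lam c S * (uu A (ind S) s i - uu A (ind S) s j) := by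
      change (y i) c - (y j) c = _
      rw [hyc, hyc]
      have h1 := hD1 c i j
      have h2 : x i c + z i c - (x j c + z j c) = (x i c - x j c) + z i c - z j c := by ring
      rw [h2, h1, hz]
      beta_reduce
      rw [← Finset.sum_add_distrib, ← Finset.sum_sub_distrib]
      refine Finset.sum_congr rfl fun S _ => ?_
      ring
    rw [this]
    refine (Finset.abs_sum_le_sum_abs _ _).trans (Finset.sum_le_sum fun S _ => ?_)
    rw [abs_mul, abs_of_nonneg (hlam0 c S)]
  have hphi : ∀ q, phi w A (fun i j => dist (x i) (x j)) q = phi w A (cutDist Λ fun S => ind S) q := by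
    intro q
    unfold phi
    simp_rw [hdist]
  simp_rw [hphi]
  refine le_trans ?_ hle
  apply add_le_add
  · refine Finset.sum_le_sum fun i _ => mul_le_mul_of_nonneg_left ?_ (hw i)
    exact pow_le_pow_left₀ dist_nonneg (hxy i) 2
  · apply mul_le_mul_of_nonneg_left _ (by positivity)
    refine Finset.sum_le_sum fun i _ => Finset.sum_le_sum fun j _ =>
      mul_le_mul_of_nonneg_left ?_ (mul_nonneg (hw i) (hA i j))
    exact pow_le_pow_left₀ dist_nonneg (hyy i j) 2

end L1

end

end Crest.Agent.Lib.MarkovCotype
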