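import Crest.Agent.Lib.MarkovCotype.Abstract

/-!
The path space of a finite reversible Markov chain, as an instance of the abstract inequality.
-/

set_option autoImplicit false
set_option linter.unusedSectionVars false
set_option linter.unnecessarySeqFocus false
set_option linter.unusedVariables false
set_option linter.style.longLine false

namespace Crest.Agent.Lib.MarkovCotype

open Finset

noncomputable section

universe u

/-- Paths with `T + 1` vertices, as iterated products. -/
def Path (V : Type u) : ℕ → Type u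
  | 0 => V
  | T + 1 => Path V T × V

section Path

variable {V : Type u} [Fintype V] [DecidableEq V]

/-- The finite structure of the path space. -/
def Path.fintype : (T : ℕ) → Fintype (Path V T)
  | 0 => ‹Fintype V›
  | T + 1 => @instFintypeProd (Path V T) V (Path.fintype T) _

instance (T : ℕ) : Fintype (Path V T) := Path.fintype T

lemma sum_path_succ {T : ℕ} (f : Path V (T + 1) → ℝ) :
    ∑ z, f z = ∑ p : Path V T, ∑ v : V, f (p, v) :=
  Fintype.sum_prod_type (γ := ℝ) (α₁ := Path V T) (α₂ := V) f

/-- Last vertex of a path. -/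
def Path.last : {T : ℕ} → Path V T → V
  | 0, v => v
  | _ + 1, z => z.2

open Classical in
/-- Vertex at time `q` of a path. -/
def Path.ev : {T : ℕ} → Path V T → ℕ → V
  | 0, v, _ => v
  | T + 1, z, q => if q = T + 1 then z.2 else Path.ev z.1 q

lemma ev_succ_top {T : ℕ} (p : Path V T) (v : V) : Path.ev (T := T + 1) (p, v) (T + 1) = v := by
  simp [Path.ev]

lemma ev_succ_of_ne {T : ℕ} (p : Path V T) (v : V) {q : ℕ} (hq : q ≠ T + 1) :
    Path.ev (T := T + 1) (p, v) q = Path.ev p q := by
  simp [Path.ev, hq]

lemma ev_top {T : ℕ} (z : Path V T) : Path.ev z T = Path.last z := by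
  cases T with
  | zero => rfl
  | succ T =>
    obtain ⟨p, v⟩ := z
    exact ev_succ_top p v

/-- Weight of a path. -/
def pw (w : V → ℝ) (A : Matrix V V ℝ) : (T : ℕ) → Path V T → ℝ
  | 0, v => w v
  | T + 1, z => pw w A T z.1 * A (Path.last z.1) z.2

lemma pw_nonneg {w : V → ℝ} {A : Matrix V V ℝ} (hw : ∀ i, 0 ≤ w i) (hA : ∀ i j, 0 ≤ A i j)
    (T : ℕ) (z : Path V T) : 0 ≤ pw w A T z := by
  induction T with
  | zero => exact hw z
  | succ T ih => exact mul_nonneg (ih z.1) (hA _ _)

/-- The filtration. -/
def pathRel (T : ℕ) (r : ℕ) (z z' : Path V T) : Prop := ∀ q ≤ r, Path.ev z q = Path.ev z' q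

lemma pathRel_succ {T r : ℕ} {z z' : Path V T} (h : pathRel T (r + 1) z z') : pathRel T r z z' :=
  fun q hq => h q (hq.trans (Nat.le_succ r))

variable {w : V → ℝ} {A : Matrix V V ℝ}

/-- Summing out the last vertex, for a function of the earlier part. -/
lemma Ex_pw_succ (hA1 : ∀ i, ∑ j, A i j = 1) {T : ℕ} (G : Path V T → ℝ) :
    Ex (pw w A (T + 1)) (fun z => G z.1) = Ex (pw w A T) G := by
  unfold Ex
  rw [sum_path_succ]
  refine Finset.sum_congr rfl fun p _ => ?_
  simp only [pw]
  have : ∀ v : V, pw w A T p * A (Path.last p) v * G p = pw w A T p * G p * A (Path.last p) v :=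
    fun v => by ring
  simp_rw [this]
  rw [← Finset.mul_sum, hA1, mul_one]

/-- Summing over the last vertex. -/
lemma Ex_pw_succ' {T : ℕ} (G : Path V (T + 1) → ℝ) :
    Ex (pw w A (T + 1)) G =
      Ex (pw w A T) (fun p => ∑ v, A (Path.last p) v * G (p, v)) := by
  unfold Ex
  rw [sum_path_succ]
  refine Finset.sum_congr rfl fun p _ => ?_
  rw [Finset.mul_sum]
  refine Finset.sum_congr rfl fun v _ => ?_
  simp only [pw]
  ring

/-- Martingale property on the path space. -/
lemma path_mart (hA1 : ∀ i, ∑ j, A i j = 1) (h : V → ℝ) (r : ℕ) (T : ℕ) (hr : r < T)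
    (g : Path V T → ℝ) (hg : Dep (pathRel T) r g) :
    Ex (pw w A T) (fun z => g z * (h (Path.ev z (r + 1)) - (A.mulVec h) (Path.ev z r))) = 0 := by
  induction T, hr using Nat.le_induction with
  | base =>
    rw [Ex_pw_succ']
    have key : ∀ (p : Path V r), ∑ v, A (Path.last p) v *
        (g (p, v) * (h (Path.ev (T := r + 1) (p, v) (r + 1)) - (A.mulVec h) (Path.ev (T := r + 1) (p, v) r))) = 0 := by
      intro p
      have h1 : ∀ v, g (p, v) = g (p, Path.last p) := by
        intro v
        apply hg
        intro q hq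
        rw [ev_succ_of_ne p v (by omega), ev_succ_of_ne p _ (by omega)]
      have h2 : ∀ v : V, Path.ev (T := r + 1) (p, v) (r + 1) = v := fun v => ev_succ_top p v
      have h3 : ∀ v : V, Path.ev (T := r + 1) (p, v) r = Path.last p := fun v => by
        rw [ev_succ_of_ne p v (by omega), ev_top]
      simp_rw [h1, h2, h3]
      have h4 : ∀ v : V, A (Path.last p) v * (g (p, Path.last p) * (h v - A.mulVec h (Path.last p))) =
          g (p, Path.last p) * (A (Path.last p) v * h v - A (Path.last p) v * A.mulVec h (Path.last p)) :=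
        fun v => by ring
      simp_rw [h4]
      rw [← Finset.mul_sum, Finset.sum_sub_distrib, ← Finset.sum_mul, hA1, one_mul]
      have : ∑ v, A (Path.last p) v * h v = A.mulVec h (Path.last p) := rfl
      rw [this, sub_self, mul_zero]
    unfold Ex
    refine Finset.sum_eq_zero fun p _ => ?_
    beta_reduce
    rw [key p, mul_zero]
  | succ T hT ih =>
    rw [Ex_pw_succ']
    have hle : r + 1 ≤ T := hT
    have key : ∀ (p : Path V T), ∑ v, A (Path.last p) v *
        (g (p, v) * (h (Path.ev (T := T + 1) (p, v) (r + 1)) - (A.mulVec h) (Path.ev (T := T + 1) (p, v) r))) =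
        g (p, Path.last p) * (h (Path.ev p (r + 1)) - (A.mulVec h) (Path.ev p r)) := by
      intro p
      have h1 : ∀ v, g (p, v) = g (p, Path.last p) := by
        intro v
        apply hg
        intro q hq
        rw [ev_succ_of_ne p v (by omega), ev_succ_of_ne p _ (by omega)]
      have h2 : ∀ v : V, Path.ev (T := T + 1) (p, v) (r + 1) = Path.ev p (r + 1) := fun v =>
        ev_succ_of_ne p v (by omega)
      have h3 : ∀ v : V, Path.ev (T := T + 1) (p, v) r = Path.ev p r := fun v =>
        ev_succ_of_ne p v (by omega)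
      simp_rw [h1, h2, h3]
      rw [← Finset.sum_mul, hA1, one_mul]
    simp_rw [key]
    apply ih
    intro p p' hpp
    apply hg
    intro q hq
    rw [ev_succ_of_ne p _ (by omega), ev_succ_of_ne p' _ (by omega)]
    exact hpp q hq

/-- Stationarity. -/
lemma stationary (hA1 : ∀ i, ∑ j, A i j = 1) (hrev : ∀ i j, w i * A i j = w j * A j i) (j : V) :
    ∑ i, w i * A i j = w j := by
  simp_rw [hrev _ j]
  rw [← Finset.mul_sum, hA1, mul_one]

/-- The law of `Z_r`. -/
lemma law_one (hA1 : ∀ i, ∑ j, A i j = 1) (hrev : ∀ i j, w i * A i j = w j * A j i) (F : V → ℝ)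
    (r : ℕ) (T : ℕ) (hr : r ≤ T) :
    Ex (pw w A T) (fun z => F (Path.ev z r)) = ∑ i, w i * F i := by
  induction T generalizing F r with
  | zero =>
    obtain rfl : r = 0 := by omega
    rfl
  | succ T ih =>
    rcases Nat.lt_or_ge r (T + 1) with h | h
    · have h2 : (fun z : Path V (T + 1) => F (Path.ev z r)) = fun z => F (Path.ev z.1 r) := by
        funext z
        obtain ⟨p, v⟩ := z
        rw [ev_succ_of_ne p v (by omega)]
      rw [h2, Ex_pw_succ hA1 (fun p => F (Path.ev p r))]
      exact ih F r (by omega)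
    · obtain rfl : r = T + 1 := by omega
      rw [Ex_pw_succ']
      have h2 : ∀ p : Path V T, ∑ v, A (Path.last p) v * F (Path.ev (T := T + 1) (p, v) (T + 1)) =
          (A.mulVec F) (Path.ev p T) := by
        intro p
        simp_rw [ev_succ_top, ev_top]
        rfl
      simp_rw [h2]
      refine (ih (A.mulVec F) T le_rfl).trans ?_
      simp only [Matrix.mulVec, dotProduct, Finset.mul_sum]
      rw [Finset.sum_comm]
      refine Finset.sum_congr rfl fun j _ => ?_
      rw [← stationary hA1 hrev j, Finset.sum_mul]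
      refine Finset.sum_congr rfl fun i _ => ?_
      ring

/-- The law of `(Z_r, Z_{r+1})`. -/
lemma law_pair (hA1 : ∀ i, ∑ j, A i j = 1) (hrev : ∀ i j, w i * A i j = w j * A j i)
    (F : V → V → ℝ) (r : ℕ) (T : ℕ) (hr : r < T) :
    Ex (pw w A T) (fun z => F (Path.ev z r) (Path.ev z (r + 1))) = ∑ i, ∑ j, w i * A i j * F i j := by
  induction T, hr using Nat.le_induction with
  | base =>
    rw [Ex_pw_succ']
    have h2 : ∀ p : Path V r, ∑ v, A (Path.last p) v *
        F (Path.ev (T := r + 1) (p, v) r) (Path.ev (T := r + 1) (p, v) (r + 1)) =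
        (fun u => ∑ v, A u v * F u v) (Path.ev p r) := by
      intro p
      have h3 : ∀ v : V, Path.ev (T := r + 1) (p, v) r = Path.ev p r := fun v =>
        ev_succ_of_ne p v (by omega)
      simp_rw [h3, ev_succ_top, ev_top]
    simp_rw [h2]
    refine (law_one hA1 hrev (fun u => ∑ v, A u v * F u v) r r le_rfl).trans ?_
    refine Finset.sum_congr rfl fun i _ => ?_
    rw [Finset.mul_sum]
    refine Finset.sum_congr rfl fun j _ => ?_
    ring
  | succ T hT ih =>
    have h2 : (fun z : Path V (T + 1) => F (Path.ev z r) (Path.ev z (r + 1))) =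
        fun z => F (Path.ev z.1 r) (Path.ev z.1 (r + 1)) := by
      funext z
      obtain ⟨p, v⟩ := z
      have hle : r + 1 ≤ T := hT
      rw [ev_succ_of_ne p v (by omega), ev_succ_of_ne p v (by omega)]
    rw [h2, Ex_pw_succ hA1 (fun p => F (Path.ev p r) (Path.ev p (r + 1)))]
    exact ih

/-- The law of `(Z_0, Z_T)`. -/
lemma law_ends (F : V → V → ℝ) (T : ℕ) :
    Ex (pw w A T) (fun z => F (Path.ev z 0) (Path.ev z T)) =
      ∑ i, ∑ j, w i * (A ^ T) i j * F i j := by
  induction T generalizing F with
  | zero =>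
    simp only [pow_zero, Matrix.one_apply]
    unfold Ex
    refine Finset.sum_congr rfl fun i _ => ?_
    simp only [mul_ite, mul_one, mul_zero, ite_mul, zero_mul]
    rw [Finset.sum_ite_eq]
    simp only [mem_univ, if_true]
    rfl
  | succ T ih =>
    rw [Ex_pw_succ']
    have h2 : ∀ p : Path V T, ∑ v, A (Path.last p) v *
        F (Path.ev (T := T + 1) (p, v) 0) (Path.ev (T := T + 1) (p, v) (T + 1)) =
        (fun a u => ∑ v, A u v * F a v) (Path.ev p 0) (Path.ev p T) := by
      intro p
      have h3 : ∀ v : V, Path.ev (T := T + 1) (p, v) 0 = Path.ev p 0 := fun v =>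
        ev_succ_of_ne p v (by omega)
      simp_rw [h3, ev_succ_top, ev_top]
    simp_rw [h2]
    refine (ih (fun a u => ∑ v, A u v * F a v)).trans ?_
    refine Finset.sum_congr rfl fun i _ => ?_
    simp_rw [pow_succ, Matrix.mul_apply, Finset.mul_sum, Finset.sum_mul]
    rw [Finset.sum_comm]
    refine Finset.sum_congr rfl fun j _ => Finset.sum_congr rfl fun v _ => ?_
    ring

end Path

end

end Crest.Agent.Lib.MarkovCotype
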